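import Mathlib

/-! P110: the numbers `2^a 10^b` are dense in the multiplicative sense. -/

namespace Vale.P110.DEN

open Real

/-- From one good ratio `x^s / y^t` slightly above `1`. -/
theorem of_ratio (x y : ℝ) (hx : 1 < x) (hy : 1 < y) (δ : ℝ) (hδ : 0 < δ) (s t : ℕ)
    (h1 : y ^ t < x ^ s) (h2 : (1 - δ) * x ^ s ≤ y ^ t) :
    ∃ N₀ : ℕ, ∀ N : ℕ, N₀ ≤ N → ∃ a b : ℕ, (1 - δ) * N ≤ x ^ a * y ^ b ∧ x ^ a * y ^ b ≤ N := by
  have hyt : 0 < y ^ t := by positivity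
  have hxs : 0 < x ^ s := by positivity
  -- the ratio
  set q : ℝ := x ^ s / y ^ t with hq
  have hq1 : 1 < q := by rw [hq, one_lt_div hyt]; exact h1
  have hqδ : (1 - δ) * q ≤ 1 := by
    rw [hq, ← mul_div_assoc, div_le_one hyt]; exact h2
  obtain ⟨I, hI⟩ := pow_unbounded_of_one_lt y hq1
  refine ⟨⌈y ^ (t * I)⌉₊ + 1, fun N hN => ?_⟩
  have hNr : y ^ (t * I) ≤ (N : ℝ) := by
    have h3 := Nat.le_ceil (y ^ (t * I))
    have h4 : ((⌈y ^ (t * I)⌉₊ + 1 : ℕ) : ℝ) ≤ N := by exact_mod_cast hN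
    push_cast at h4
    linarith
  have hN1 : (1 : ℝ) ≤ N := le_trans (one_le_pow₀ hy.le) hNr
  -- `y^b ≤ N < y^(b+1)`
  obtain ⟨b, hb1, hb2⟩ := exists_nat_pow_near hN1 hy
  have hbI : t * I ≤ b := by
    by_contra hcon
    push Not at hcon
    have : y ^ (b + 1) ≤ y ^ (t * I) := pow_le_pow_right₀ hy.le hcon
    linarith
  -- `q^i ≤ N / y^b < q^(i+1)`
  have hyb : 0 < y ^ b := by positivity
  have hNb : 1 ≤ (N : ℝ) / y ^ b := by rw [one_le_div hyb]; exact hb1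
  obtain ⟨i, hi1, hi2⟩ := exists_nat_pow_near hNb hq1
  have hiI : i ≤ I := by
    by_contra hcon
    push Not at hcon
    have h3 : q ^ I ≤ q ^ i := pow_le_pow_right₀ hq1.le hcon.le
    have h4 : (N : ℝ) / y ^ b < y := by
      rw [div_lt_iff₀ hyb, ← pow_succ']
      exact hb2
    linarith
  have hti : t * i ≤ b := le_trans (Nat.mul_le_mul_left t hiI) hbI
  refine ⟨s * i, b - t * i, ?_⟩
  have hval : x ^ (s * i) * y ^ (b - t * i) = q ^ i * y ^ b := by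
    rw [hq, div_pow, ← pow_mul, ← pow_mul, div_mul_eq_mul_div, eq_div_iff (by positivity), mul_assoc,
      ← pow_add, Nat.sub_add_cancel hti]
  rw [hval]
  constructor
  · rw [pow_succ, div_lt_iff₀ hyb] at hi2
    have hqi : 0 < q ^ i := by positivity
    rcases le_or_gt (1 - δ) 0 with h3 | h3
    · have : (1 - δ) * (N : ℝ) ≤ 0 := mul_nonpos_of_nonpos_of_nonneg h3 (by linarith)
      have : 0 < q ^ i * y ^ b := by positivity
      linarith
    · calc (1 - δ) * (N : ℝ) ≤ (1 - δ) * (q ^ i * q * y ^ b) :=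
            mul_le_mul_of_nonneg_left hi2.le h3.le
        _ = ((1 - δ) * q) * (q ^ i * y ^ b) := by ring
        _ ≤ 1 * (q ^ i * y ^ b) := mul_le_mul_of_nonneg_right hqδ (by positivity)
        _ = q ^ i * y ^ b := one_mul _
  · rw [le_div_iff₀ hyb] at hi1
    exact hi1

theorem two_pow_ne (s t : ℕ) (hs : 0 < s) : (2 : ℝ) ^ s ≠ 10 ^ t := by
  intro h
  have h' : (2 : ℕ) ^ s = 10 ^ t := by exact_mod_cast h
  rcases Nat.eq_zero_or_pos t with ht | ht
  · rw [ht, pow_zero] at h'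
    have : 2 ≤ 2 ^ s := Nat.le_self_pow hs.ne' 2
    omega
  · have h5 : 5 ∣ 2 ^ s := by
      rw [h']
      exact dvd_trans (by norm_num : 5 ∣ 10) (dvd_pow_self 10 ht.ne')
    have := (Nat.Prime.dvd_of_dvd_pow (by norm_num : Nat.Prime 5) h5)
    omega

/-- A good ratio. -/
theorem ratio (δ : ℝ) (hδ : 0 < δ) (hδ1 : δ < 1) : ∃ s t : ℕ, 0 < s ∧
    (((10 : ℝ) ^ t < 2 ^ s ∧ (1 - δ) * 2 ^ s ≤ (10 : ℝ) ^ t) ∨
      ((2 : ℝ) ^ s < 10 ^ t ∧ (1 - δ) * 10 ^ t ≤ (2 : ℝ) ^ s)) := by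
  have hl10 : 0 < log 10 := log_pos (by norm_num)
  have hl2 : 0 < log 2 := log_pos (by norm_num)
  -- `|s log 2 - t log 10| ≤ η`, `exp (-η) ≥ 1 - δ`
  obtain ⟨n, hn⟩ := exists_nat_gt (log 10 / δ)
  have hn0 : 0 < n := by
    have : (0 : ℝ) < n := lt_trans (by positivity) hn
    exact_mod_cast this
  obtain ⟨j, k, hk0, hkn, hjk⟩ := Real.exists_int_int_abs_mul_sub_le (log 2 / log 10) hn0
  have hη : |(k : ℝ) * log 2 - j * log 10| ≤ δ := by
    have h1 : (k : ℝ) * log 2 - j * log 10 = ((log 2 / log 10) * k - j) * log 10 := by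
      field_simp
    rw [h1, abs_mul, abs_of_pos hl10]
    calc |(log 2 / log 10) * k - j| * log 10 ≤ (1 / ((n : ℝ) + 1)) * log 10 := by
          apply mul_le_mul_of_nonneg_right _ hl10.le
          have := hjk
          rwa [mul_comm] at this
      _ = log 10 / ((n : ℝ) + 1) := by ring
      _ ≤ δ := by
          rw [div_le_iff₀ (by positivity)]
          rw [div_lt_iff₀ hδ] at hn
          nlinarith
  have hj0 : 0 ≤ j := by
    by_contra hcon
    push Not at hcon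
    have h2 : (j : ℝ) ≤ -1 := by exact_mod_cast (by omega : j ≤ -1)
    have h3 : 0 < (k : ℝ) * (log 2 / log 10) := by
      have : (0 : ℝ) < k := by exact_mod_cast hk0
      positivity
    have h4 := (abs_le.1 hjk).2
    have h5 : 1 / ((n : ℝ) + 1) < 1 := by
      rw [div_lt_one (by positivity)]
      have : (0 : ℝ) < n := by exact_mod_cast hn0
      linarith
    linarith
  obtain ⟨s, rfl⟩ := Int.eq_ofNat_of_zero_le hk0.le
  obtain ⟨t, rfl⟩ := Int.eq_ofNat_of_zero_le hj0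
  have hs0 : 0 < s := by exact_mod_cast hk0
  refine ⟨s, t, hs0, ?_⟩
  have hA : (0 : ℝ) < 2 ^ s := by positivity
  have hB : (0 : ℝ) < 10 ^ t := by positivity
  have lA : log ((2 : ℝ) ^ s) = s * log 2 := Real.log_pow _ _
  have lB : log ((10 : ℝ) ^ t) = t * log 10 := Real.log_pow _ _
  have hη' : |log ((2 : ℝ) ^ s) - log ((10 : ℝ) ^ t)| ≤ δ := by
    rw [lA, lB]
    simpa using hη
  have hab := abs_le.1 hη'
  have key : ∀ A B : ℝ, 0 < A → 0 < B → log A - log B ≤ δ → (1 - δ) * A ≤ B := by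
    intro A B hA hB h
    have h1 : exp (-δ) ≤ exp (log B - log A) := exp_le_exp.2 (by linarith)
    rw [exp_sub, exp_log hA, exp_log hB, le_div_iff₀ hA] at h1
    have h2 : 1 - δ ≤ exp (-δ) := by
      have := Real.add_one_le_exp (-δ)
      linarith
    exact le_trans (mul_le_mul_of_nonneg_right h2 hA.le) h1
  rcases lt_or_gt_of_ne (two_pow_ne s t hs0) with h | h
  · exact Or.inr ⟨h, key _ _ hB hA (by linarith)⟩
  · exact Or.inl ⟨h, key _ _ hA hB (by linarith)⟩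

theorem thm : ∀ δ : ℝ, 0 < δ → δ < 1 → ∃ N₀ : ℕ, ∀ N : ℕ, N₀ ≤ N → ∃ a b : ℕ,
    (1 - δ) * N ≤ (2 : ℝ) ^ a * 10 ^ b ∧ (2 : ℝ) ^ a * 10 ^ b ≤ N := by
  intro δ hδ hδ1
  obtain ⟨s, t, hs, h | h⟩ := ratio δ hδ hδ1
  · exact of_ratio 2 10 (by norm_num) (by norm_num) δ hδ s t h.1 h.2
  · obtain ⟨N₀, hN⟩ := of_ratio 10 2 (by norm_num) (by norm_num) δ hδ t s h.1 h.2
    refine ⟨N₀, fun N h => ?_⟩
    obtain ⟨a, b, h1, h2⟩ := hN N h
    exact ⟨b, a, by rw [mul_comm ((2 : ℝ) ^ b)]; exact h1, by rw [mul_comm ((2 : ℝ) ^ b)]; exact h2⟩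

end Vale.P110.DEN
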