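import Vale.Agent.P110.GOL
import Vale.Agent.P110.DEN

/-! # P110: assembly of the `√2 + c` bound (helper18) -/

namespace Vale.P110.ASMG
open Finset BigOperators Vale.P110

theorem concat (g r : ℕ) (e f : ℕ → ℤ) (he : Signs g e) (hf : Signs r f) (A B : ℝ)
    (hA : ∀ z : ℂ, ‖z‖ = 1 → ‖lit g e z‖ ≤ A) (hB : ∀ z : ℂ, ‖z‖ = 1 → ‖lit r f z‖ ≤ B) :
    ∃ h : ℕ → ℤ, Signs (g + r) h ∧ ∀ z : ℂ, ‖z‖ = 1 → ‖lit (g + r) h z‖ ≤ A + B := by
  refine ⟨fun k => if k < g then e k else f (k - g), ?_, ?_⟩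
  · intro k hk
    show (if k < g then e k else f (k - g)) = 1 ∨ (if k < g then e k else f (k - g)) = -1
    by_cases h : k < g
    · rw [if_pos h]
      exact he k h
    · rw [if_neg h]
      exact hf (k - g) (by omega)
  · intro z hz
    have h1 : lit (g + r) (fun k => if k < g then e k else f (k - g)) z =
        lit g e z + z ^ g * lit r f z := by
      unfold lit
      rw [Finset.sum_range_add, Finset.mul_sum]
      congr 1
      · refine Finset.sum_congr rfl fun k hk => ?_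
        have h2 : k < g := Finset.mem_range.mp hk
        simp only [h2, if_true]
      · refine Finset.sum_congr rfl fun k _ => ?_
        have h2 : ¬ (g + k < g) := by omega
        have h3 : g + k - g = k := by omega
        simp only [h2, if_false, h3]
        rw [pow_add]
        ring
    rw [h1]
    calc ‖lit g e z + z ^ g * lit r f z‖ ≤ ‖lit g e z‖ + ‖z ^ g * lit r f z‖ := norm_add_le _ _
      _ = ‖lit g e z‖ + ‖lit r f z‖ := by
          rw [norm_mul, norm_pow, hz, one_pow, one_mul]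
      _ ≤ A + B := add_le_add (hA z hz) (hB z hz)

theorem five (N : ℕ) : ∃ e : ℕ → ℤ, Signs N e ∧
    ∀ z : ℂ, ‖z‖ = 1 → ‖lit N e z‖ ≤ 5 * Real.sqrt N := by
  induction N using Nat.strong_induction_on with
  | _ N ih =>
    rcases Nat.eq_zero_or_pos N with h0 | h0
    · subst h0
      refine ⟨fun _ => 1, fun k hk => absurd hk (Nat.not_lt_zero k), fun z _ => ?_⟩
      unfold lit
      simp
    · set g : ℕ := 2 ^ Nat.log 2 N with hg
      have h1 : g ≤ N := Nat.pow_log_le_self 2 (by omega)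
      have h2 : N < 2 * g := by
        have := Nat.lt_pow_succ_log_self (by norm_num : 1 < 2) N
        rw [pow_succ] at this
        omega
      have h3 : 0 < g := by
        rw [hg]
        positivity
      obtain ⟨f, hf1, hf2⟩ := ih (N - g) (by omega)
      obtain ⟨e, he1, he2⟩ := GOL.thm (Nat.log 2 N) 0
      have h4 : 2 ^ Nat.log 2 N * 10 ^ 0 = g := by rw [hg]; ring
      rw [h4] at he1 he2
      obtain ⟨h, hh1, hh2⟩ := concat g (N - g) e f he1 hf1 _ _ he2 hf2
      have h5 : g + (N - g) = N := by omega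
      rw [h5] at hh1 hh2
      refine ⟨h, hh1, fun z hz => le_trans (hh2 z hz) ?_⟩
      have h6 : Real.sqrt (2 * (g : ℝ)) ≤ Real.sqrt 2 * Real.sqrt N := by
        rw [← Real.sqrt_mul (by norm_num : (0 : ℝ) ≤ 2)]
        apply Real.sqrt_le_sqrt
        have : (g : ℝ) ≤ N := by exact_mod_cast h1
        linarith
      have h7 : Real.sqrt ((N - g : ℕ) : ℝ) ≤ Real.sqrt (1 / 2) * Real.sqrt N := by
        rw [← Real.sqrt_mul (by norm_num : (0 : ℝ) ≤ 1 / 2)]
        apply Real.sqrt_le_sqrt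
        have h8 : 2 * ((N - g : ℕ) : ℝ) ≤ N := by
          have : 2 * (N - g) ≤ N := by omega
          exact_mod_cast this
        linarith
      have h8 : Real.sqrt 2 ≤ 1.4143 := by
        rw [Real.sqrt_le_left (by norm_num)]
        norm_num
      have h9 : Real.sqrt (1 / 2) ≤ 0.7072 := by
        rw [Real.sqrt_le_left (by norm_num)]
        norm_num
      have h10 : 0 ≤ Real.sqrt N := Real.sqrt_nonneg _
      nlinarith

theorem main (c : ℝ) (hc : 0 < c) : ∃ N₀ : ℕ, ∀ N : ℕ, N₀ ≤ N → ∃ e : ℕ → ℤ, Signs N e ∧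
    ∀ z : ℂ, ‖z‖ = 1 → ‖lit N e z‖ ≤ (Real.sqrt 2 + c) * Real.sqrt N := by
  set δ : ℝ := min ((c / 5) ^ 2) (1 / 2) with hδ
  have hδ0 : 0 < δ := by
    rw [hδ]
    exact lt_min (by positivity) (by norm_num)
  have hδ1 : δ < 1 := lt_of_le_of_lt (min_le_right _ _) (by norm_num)
  have hδc : 5 * Real.sqrt δ ≤ c := by
    have h1 : Real.sqrt δ ≤ c / 5 := by
      rw [Real.sqrt_le_left (by positivity)]
      exact min_le_left _ _
    linarith
  obtain ⟨N₀, hN₀⟩ := DEN.thm δ hδ0 hδ1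
  refine ⟨N₀, fun N hN => ?_⟩
  obtain ⟨a, b, h1, h2⟩ := hN₀ N hN
  set g : ℕ := 2 ^ a * 10 ^ b with hg
  have hgr : ((g : ℕ) : ℝ) = (2 : ℝ) ^ a * 10 ^ b := by
    rw [hg]
    push_cast
    ring
  rw [← hgr] at h1 h2
  have h3 : g ≤ N := by exact_mod_cast h2
  obtain ⟨e, he1, he2⟩ := GOL.thm a b
  rw [← hg] at he1 he2
  obtain ⟨f, hf1, hf2⟩ := five (N - g)
  obtain ⟨h, hh1, hh2⟩ := concat g (N - g) e f he1 hf1 _ _ he2 hf2
  have h5 : g + (N - g) = N := by omega
  rw [h5] at hh1 hh2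
  refine ⟨h, hh1, fun z hz => le_trans (hh2 z hz) ?_⟩
  have h6 : Real.sqrt (2 * (g : ℝ)) ≤ Real.sqrt 2 * Real.sqrt N := by
    rw [← Real.sqrt_mul (by norm_num : (0 : ℝ) ≤ 2)]
    apply Real.sqrt_le_sqrt
    linarith
  have h7 : Real.sqrt ((N - g : ℕ) : ℝ) ≤ Real.sqrt δ * Real.sqrt N := by
    rw [← Real.sqrt_mul hδ0.le]
    apply Real.sqrt_le_sqrt
    rw [Nat.cast_sub h3]
    linarith
  have h10 : 0 ≤ Real.sqrt N := Real.sqrt_nonneg _
  calc Real.sqrt (2 * (g : ℝ)) + 5 * Real.sqrt ((N - g : ℕ) : ℝ)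
      ≤ Real.sqrt 2 * Real.sqrt N + 5 * (Real.sqrt δ * Real.sqrt N) := by linarith
    _ = (Real.sqrt 2 + 5 * Real.sqrt δ) * Real.sqrt N := by ring
    _ ≤ (Real.sqrt 2 + c) * Real.sqrt N := mul_le_mul_of_nonneg_right (by linarith) h10

end Vale.P110.ASMG
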