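import Vale.Agent.P110.Defs

/-! P110, module MEAN: orthogonality of the powers on the circle. -/

namespace Vale.P110.MEAN

open intervalIntegral

lemma int_exp (k l : ℕ) :
    (∫ θ in (0 : ℝ)..2 * Real.pi, circleMap 0 1 θ ^ k * star (circleMap 0 1 θ ^ l)) =
      if k = l then 2 * (Real.pi : ℂ) else 0 := by
  have h : ∀ θ : ℝ, circleMap 0 1 θ ^ k * star (circleMap 0 1 θ ^ l) =
      Complex.exp ((((k : ℂ) - l) * Complex.I) * θ) := by
    intro θ
    simp only [circleMap, zero_add, Complex.ofReal_one, one_mul]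
    rw [← Complex.exp_nat_mul, ← Complex.exp_nat_mul, Complex.star_def, ← Complex.exp_conj,
      ← Complex.exp_add]
    congr 1
    simp only [map_mul, Complex.conj_ofReal, Complex.conj_I, map_natCast]
    ring
  simp_rw [h]
  by_cases hkl : k = l
  · subst hkl
    simp
  · rw [if_neg hkl]
    have hc : ((k : ℂ) - l) * Complex.I ≠ 0 :=
      mul_ne_zero (sub_ne_zero.mpr (by exact_mod_cast hkl)) Complex.I_ne_zero
    rw [integral_exp_mul_complex hc]
    have h1 : Complex.exp (((k : ℂ) - l) * Complex.I * ((2 * Real.pi : ℝ) : ℂ)) = 1 := by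
      rw [Complex.exp_eq_one_iff]
      refine ⟨(k : ℤ) - l, ?_⟩
      push_cast
      ring
    rw [h1]
    simp

theorem thm : StmtMEAN := by
  intro N u v
  have h : ∀ θ : ℝ, (∑ k ∈ Finset.range N, u k * circleMap 0 1 θ ^ k) *
      star (∑ k ∈ Finset.range N, v k * circleMap 0 1 θ ^ k) =
      ∑ k ∈ Finset.range N, ∑ l ∈ Finset.range N,
        (u k * star (v l)) * (circleMap 0 1 θ ^ k * star (circleMap 0 1 θ ^ l)) := by
    intro θ
    rw [star_sum, Finset.sum_mul_sum]
    refine Finset.sum_congr rfl fun k _ => Finset.sum_congr rfl fun l _ => ?_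
    rw [star_mul']
    ring
  have hcont : ∀ k l : ℕ, Continuous fun θ : ℝ =>
      (u k * star (v l)) * (circleMap 0 1 θ ^ k * star (circleMap 0 1 θ ^ l)) := by
    intro k l
    have := continuous_circleMap 0 1
    fun_prop
  simp_rw [h]
  rw [integral_finsetSum fun k _ => (continuous_finsetSum _ fun l _ =>
    hcont k l).intervalIntegrable _ _, Finset.mul_sum]
  refine Finset.sum_congr rfl fun k hk => ?_
  rw [integral_finsetSum fun l _ => (hcont k l).intervalIntegrable _ _]
  rw [Finset.sum_eq_single k]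
  · rw [integral_const_mul, int_exp, if_pos rfl]
    ring
  · intro l _ hl
    rw [integral_const_mul, int_exp, if_neg (Ne.symm hl), mul_zero]
  · intro hk'
    exact absurd hk hk'

end Vale.P110.MEAN
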