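import Vale.Agent.P110.Defs
import Vale.Agent.P110.MEAN

/-! P110: autocorrelations of flat polynomials. -/

namespace Vale.P110.AutoC

open Finset

/-- `|C_s| ≤ (2 c + c²) N` for a `c`-flat polynomial with real coefficients -/
theorem auto {N : ℕ} {ε : ℕ → ℤ} {c : ℝ} (hc0 : 0 ≤ c) (hc1 : c < 1)
    (h : ∀ z : ℂ, ‖z‖ = 1 → (1 - c) * √N ≤ ‖∑ k ∈ range N, (ε k : ℂ) * z ^ k‖ ∧
      ‖∑ k ∈ range N, (ε k : ℂ) * z ^ k‖ ≤ (1 + c) * √N) (s : ℕ) (hs : 1 ≤ s) (hsN : s ≤ N) :
    |((∑ k ∈ range (N - s), ε (k + s) * ε k : ℤ) : ℝ)| ≤ (2 * c + c ^ 2) * N := by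
  set p : ℝ → ℂ := fun θ => ∑ k ∈ range N, (ε k : ℂ) * circleMap 0 1 θ ^ k with hp
  have hcz : Continuous fun θ => circleMap 0 1 θ := continuous_circleMap 0 1
  have hcp : Continuous p := by
    rw [hp]
    exact continuous_finsetSum _ fun k _ => continuous_const.mul (hcz.pow k)
  have hsq : √(N : ℝ) ^ 2 = N := Real.sq_sqrt (by positivity)
  have hb : ∀ θ, |‖p θ‖ ^ 2 - N| ≤ (2 * c + c ^ 2) * N := by
    intro θ
    obtain ⟨h1, h2⟩ := h (circleMap 0 1 θ) (by simp)
    have hN0 : (0 : ℝ) ≤ N := Nat.cast_nonneg N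
    have e1 : (1 - c) ^ 2 * N ≤ ‖p θ‖ ^ 2 := by
      calc (1 - c) ^ 2 * N = ((1 - c) * √N) ^ 2 := by rw [mul_pow, hsq]
        _ ≤ ‖p θ‖ ^ 2 := pow_le_pow_left₀ (mul_nonneg (by linarith) (Real.sqrt_nonneg _)) h1 2
    have e2 : ‖p θ‖ ^ 2 ≤ (1 + c) ^ 2 * N := by
      calc ‖p θ‖ ^ 2 ≤ ((1 + c) * √N) ^ 2 := pow_le_pow_left₀ (norm_nonneg _) h2 2
        _ = (1 + c) ^ 2 * N := by rw [mul_pow, hsq]
    rw [abs_le]
    constructor <;> nlinarith
  -- the correlation as an integral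
  have hM := MEAN.thm (N + s) (fun k => if k < N then (ε k : ℂ) else 0)
    (fun k => if s ≤ k then (ε (k - s) : ℂ) else 0)
  have hM0 := MEAN.thm (N + s) (fun k => if k = 0 then (1 : ℂ) else 0)
    (fun k => if k = s then (1 : ℂ) else 0)
  have a1 : ∀ θ, (∑ k ∈ range (N + s), (if k < N then (ε k : ℂ) else 0) * circleMap 0 1 θ ^ k) =
      p θ := by
    intro θ
    rw [sum_range_add, hp]
    have z1 : ∑ x ∈ range s, (if N + x < N then (ε (N + x) : ℂ) else 0) *
        circleMap 0 1 θ ^ (N + x) = 0 := by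
      apply sum_eq_zero
      intro x _
      rw [if_neg (by omega), zero_mul]
    rw [z1, add_zero]
    refine sum_congr rfl fun k hk => ?_
    rw [if_pos (mem_range.1 hk)]
  have a2 : ∀ θ, (∑ k ∈ range (N + s), (if s ≤ k then (ε (k - s) : ℂ) else 0) *
      circleMap 0 1 θ ^ k) = circleMap 0 1 θ ^ s * p θ := by
    intro θ
    rw [add_comm N s, sum_range_add, hp, mul_sum]
    have z1 : ∑ x ∈ range s, (if s ≤ x then (ε (x - s) : ℂ) else 0) *
        circleMap 0 1 θ ^ x = 0 := by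
      apply sum_eq_zero
      intro x hx
      rw [mem_range] at hx
      rw [if_neg (by omega), zero_mul]
    rw [z1, zero_add]
    refine sum_congr rfl fun k hk => ?_
    rw [if_pos (by omega), Nat.add_sub_cancel_left, pow_add]
    ring
  have a3 : ∀ θ, (∑ k ∈ range (N + s), (if k = 0 then (1 : ℂ) else 0) * circleMap 0 1 θ ^ k) =
      1 := by
    intro θ
    rw [sum_eq_single_of_mem 0 (mem_range.2 (by omega))]
    · simp
    · intro b _ hb0
      rw [if_neg hb0, zero_mul]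
  have a4 : ∀ θ, (∑ k ∈ range (N + s), (if k = s then (1 : ℂ) else 0) * circleMap 0 1 θ ^ k) =
      circleMap 0 1 θ ^ s := by
    intro θ
    by_cases hN0 : N = 0
    · omega
    rw [sum_eq_single_of_mem s (mem_range.2 (by omega))]
    · simp
    · intro b _ hb0
      rw [if_neg hb0, zero_mul]
  have b1 : ∑ k ∈ range (N + s), (if k < N then (ε k : ℂ) else 0) *
      star (if s ≤ k then (ε (k - s) : ℂ) else 0) =
      ((∑ k ∈ range (N - s), ε (k + s) * ε k : ℤ) : ℂ) := by
    have e0 : N + s = s + (N - s) + s := by omega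
    rw [e0, sum_range_add, sum_range_add]
    have z1 : ∑ x ∈ range s, (if x < N then (ε x : ℂ) else 0) *
        star (if s ≤ x then (ε (x - s) : ℂ) else 0) = 0 := by
      apply sum_eq_zero
      intro x hx
      rw [mem_range] at hx
      rw [if_neg (show ¬ s ≤ x by omega), star_zero, mul_zero]
    have z2 : ∑ x ∈ range s, (if s + (N - s) + x < N then (ε (s + (N - s) + x) : ℂ) else 0) *
        star (if s ≤ s + (N - s) + x then (ε (s + (N - s) + x - s) : ℂ) else 0) = 0 := by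
      apply sum_eq_zero
      intro x hx
      rw [if_neg (by omega), zero_mul]
    rw [z1, z2, zero_add, add_zero]
    push_cast
    refine sum_congr rfl fun k hk => ?_
    rw [mem_range] at hk
    rw [if_pos (by omega), if_pos (by omega), Nat.add_sub_cancel_left, Complex.star_def,
      map_intCast, add_comm s k]
  have b2 : ∑ k ∈ range (N + s), (if k = 0 then (1 : ℂ) else 0) *
      star (if k = s then (1 : ℂ) else 0) = 0 := by
    apply sum_eq_zero
    intro k _
    by_cases hk : k = 0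
    · rw [if_neg (show ¬ k = s by omega), star_zero, mul_zero]
    · rw [if_neg hk, zero_mul]
  rw [b1] at hM
  rw [b2, mul_zero] at hM0
  simp only [a1, a2] at hM
  simp only [a3, a4, one_mul] at hM0
  -- difference
  have hint : (∫ θ in (0 : ℝ)..2 * Real.pi, ((‖p θ‖ ^ 2 - N : ℝ) : ℂ) *
      star (circleMap 0 1 θ ^ s)) =
      2 * Real.pi * ((∑ k ∈ range (N - s), ε (k + s) * ε k : ℤ) : ℂ) := by
    rw [← hM]
    have e1 : ∀ θ, ((‖p θ‖ ^ 2 - N : ℝ) : ℂ) * star (circleMap 0 1 θ ^ s) =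
        p θ * star (circleMap 0 1 θ ^ s * p θ) - N * star (circleMap 0 1 θ ^ s) := by
      intro θ
      have e2 : ((‖p θ‖ ^ 2 : ℝ) : ℂ) = p θ * star (p θ) := by
        rw [Complex.star_def, Complex.mul_conj, Complex.normSq_eq_norm_sq]
      rw [Complex.ofReal_sub, e2, star_mul']
      push_cast
      ring
    simp only [e1]
    rw [intervalIntegral.integral_sub, intervalIntegral.integral_const_mul, hM0, mul_zero,
      sub_zero]
    · exact (hcp.mul (continuous_star.comp ((hcz.pow s).mul hcp))).intervalIntegrable _ _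
    · exact (continuous_const.mul (continuous_star.comp (hcz.pow s))).intervalIntegrable _ _
  have hle : ‖∫ θ in (0 : ℝ)..2 * Real.pi, ((‖p θ‖ ^ 2 - N : ℝ) : ℂ) *
      star (circleMap 0 1 θ ^ s)‖ ≤ (2 * c + c ^ 2) * N * |2 * Real.pi - 0| := by
    apply intervalIntegral.norm_integral_le_of_norm_le_const
    intro θ _
    rw [norm_mul, norm_star, norm_pow, Complex.norm_real, Real.norm_eq_abs]
    simp only [norm_circleMap_zero, abs_one, one_pow, mul_one]
    exact hb θ
  rw [hint, norm_mul, sub_zero, abs_of_pos Real.two_pi_pos] at hle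
  have e3 : ‖(2 * Real.pi : ℂ)‖ = 2 * Real.pi := by
    rw [← Complex.ofReal_ofNat, ← Complex.ofReal_mul, Complex.norm_real, Real.norm_eq_abs,
      abs_of_pos Real.two_pi_pos]
  rw [e3, Complex.norm_intCast] at hle
  have := Real.two_pi_pos
  nlinarith [hle, mul_comm (2 * Real.pi)
    |((∑ k ∈ range (N - s), ε (k + s) * ε k : ℤ) : ℝ)|]

/-- products with a short outer factor are not flat -/
theorem outer (m L : ℕ) (hm : 1 ≤ m) (hL : 2 ≤ L) (ε q r : ℕ → ℤ)
    (hq : ∀ k < m, q k = 1 ∨ q k = -1) (hr : ∀ k < L, r k = 1 ∨ r k = -1)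
    (he : ∀ k < m, ∀ l < L, ε (m * l + k) = q k * r l) :
    ¬ ∀ z : ℂ, ‖z‖ = 1 → (1 - 1 / (4 * (L : ℝ))) * √((m * L : ℕ) : ℝ) ≤
      ‖∑ k ∈ range (m * L), (ε k : ℂ) * z ^ k‖ ∧
      ‖∑ k ∈ range (m * L), (ε k : ℂ) * z ^ k‖ ≤ (1 + 1 / (4 * (L : ℝ))) * √((m * L : ℕ) : ℝ) := by
  intro h
  have hLr : (2 : ℝ) ≤ L := by exact_mod_cast hL
  have hmr : (1 : ℝ) ≤ m := by exact_mod_cast hm
  have hs1 : m * (L - 1) ≤ m * L := Nat.mul_le_mul_left m (Nat.sub_le L 1)
  have hs0 : 1 ≤ m * (L - 1) := Nat.mul_pos hm (by omega)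
  have hc1 : 1 / (4 * (L : ℝ)) < 1 := by
    rw [div_lt_one (by positivity)]
    linarith
  have h2 := auto (by positivity) hc1 h (m * (L - 1)) hs0 hs1
  have hsub : m * L - m * (L - 1) = m := by
    rw [← Nat.mul_sub]
    have : L - (L - 1) = 1 := by omega
    rw [this, mul_one]
  rw [hsub] at h2
  have hval : ∑ k ∈ range m, ε (k + m * (L - 1)) * ε k = m * (r (L - 1) * r 0) := by
    rw [sum_congr rfl (g := fun _ => r (L - 1) * r 0)]
    · simp
    · intro k hk
      rw [mem_range] at hk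
      have e1 := he k hk (L - 1) (by omega)
      have e2 := he k hk 0 (by omega)
      rw [mul_zero, zero_add] at e2
      rw [add_comm k, e1, e2]
      rcases hq k hk with h | h <;> rw [h] <;> ring
  rw [hval] at h2
  have habs : |(((m : ℤ) * (r (L - 1) * r 0) : ℤ) : ℝ)| = m := by
    rcases hr (L - 1) (by omega) with h3 | h3 <;> rcases hr 0 (by omega) with h4 | h4 <;>
      rw [h3, h4] <;> simp
  rw [habs] at h2
  push_cast at h2
  have e5 : (2 * (1 / (4 * (L : ℝ))) + (1 / (4 * (L : ℝ))) ^ 2) * (m * L) =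
      m * (1 / 2 + 1 / (16 * L)) := by
    field_simp
    ring
  rw [e5] at h2
  have e6 : 1 / (16 * (L : ℝ)) ≤ 1 / 32 := by
    apply one_div_le_one_div_of_le (by norm_num)
    linarith
  nlinarith

end Vale.P110.AutoC
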