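import Vale.Agent.P110.Defs

namespace Vale.P110.CNT

open Polynomial

lemma cont_inv (r : ℂ) (hr : ‖r‖ ≠ 1) :
    CircleIntegrable (fun z : ℂ => 1 / (z - r)) 0 1 := by
  apply ContinuousOn.circleIntegrable (by norm_num)
  apply ContinuousOn.div continuousOn_const (by fun_prop)
  intro z hz h0
  apply hr
  rw [← sub_eq_zero.1 h0]
  simpa using hz

lemma int_inv (r : ℂ) (hr : ‖r‖ ≠ 1) :
    (∮ z in C(0, 1), 1 / (z - r)) = if ‖r‖ < 1 then 2 * Real.pi * Complex.I else 0 := by
  split_ifs with h
  · have := circleIntegral.integral_sub_inv_of_mem_ball (c := 0) (w := r) (R := 1)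
      (by simpa using h)
    rw [← this]
    simp only [one_div]
  · have h1 : 1 < ‖r‖ := lt_of_le_of_ne (not_lt.1 h) (Ne.symm hr)
    apply DiffContOnCl.circleIntegral_eq_zero (by norm_num)
    apply DifferentiableOn.diffContOnCl
    rw [closure_ball _ one_ne_zero]
    intro z hz
    apply DifferentiableAt.differentiableWithinAt
    have hne : z - r ≠ 0 := by
      intro h0
      have hz' : ‖z‖ ≤ 1 := by simpa using hz
      rw [sub_eq_zero.1 h0] at hz'
      linarith
    fun_prop (disch := exact hne)

lemma multi (s : Multiset ℂ) (hs : ∀ r ∈ s, ‖r‖ ≠ 1) :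
    CircleIntegrable (fun z : ℂ => (s.map fun r => 1 / (z - r)).sum) 0 1 ∧
    (∮ z in C(0, 1), (s.map fun r => 1 / (z - r)).sum) =
      2 * Real.pi * Complex.I * ((s.filter fun r => ‖r‖ < 1).card : ℕ) := by
  classical
  induction s using Multiset.induction_on with
  | empty => simp [circleIntegral]
  | cons r s ih =>
    obtain ⟨i1, i2⟩ := ih fun q hq => hs q (Multiset.mem_cons_of_mem hq)
    have hr := hs r (Multiset.mem_cons_self r s)
    have e : (fun z : ℂ => ((r ::ₘ s).map fun r => 1 / (z - r)).sum) =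
        fun z : ℂ => 1 / (z - r) + (s.map fun r => 1 / (z - r)).sum := by
      funext z
      simp
    refine ⟨?_, ?_⟩
    · rw [e]
      exact (cont_inv r hr).add i1
    · rw [e, circleIntegral.integral_add (cont_inv r hr) i1, i2, int_inv r hr,
        Multiset.filter_cons]
      split_ifs with h
      · simp only [Multiset.card_add, Multiset.card_singleton, Nat.cast_add, Nat.cast_one]
        ring
      · simp

theorem thm : StmtCNT := by
  classical
  intro a B hB
  set Q : ℂ[X] := X ^ a * B with hQ
  have hQe : ∀ z : ℂ, ‖z‖ = 1 → Q.eval z ≠ 0 := by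
    intro z hz
    have hz0 : z ≠ 0 := by
      rintro rfl
      simp at hz
    rw [hQ, eval_mul, eval_pow, eval_X]
    exact mul_ne_zero (pow_ne_zero _ hz0) (hB z hz)
  have hB0 : B ≠ 0 := by
    rintro rfl
    exact hB 1 (by simp) (by simp)
  have hQ0 : Q ≠ 0 := mul_ne_zero (pow_ne_zero _ X_ne_zero) hB0
  have hroots : ∀ r ∈ Q.roots, ‖r‖ ≠ 1 := by
    intro r hr h1
    exact hQe r h1 ((mem_roots hQ0).1 hr)
  refine ⟨(Q.roots.filter fun r => ‖r‖ < 1).card, ?_, ?_⟩
  · have : Q.roots = Multiset.replicate a 0 + B.roots := by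
      rw [hQ, roots_mul hQ0, roots_X_pow, Multiset.nsmul_singleton]
    rw [this, Multiset.filter_add, Multiset.card_add]
    have : (Multiset.replicate a (0 : ℂ)).filter (fun r => ‖r‖ < 1) = Multiset.replicate a 0 := by
      rw [Multiset.filter_eq_self]
      intro r hr
      rw [Multiset.eq_of_mem_replicate hr]
      simp
    rw [this, Multiset.card_replicate]
    omega
  · rw [← (multi Q.roots hroots).2]
    apply circleIntegral.integral_congr (by norm_num)
    intro z hz
    have hz1 : ‖z‖ = 1 := by simpa using hz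
    exact (IsAlgClosed.splits Q).eval_derivative_div_eval_of_ne_zero (hQe z hz1)

end Vale.P110.CNT
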