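import Vale.Agent.P110.FIN

/-! P110: the statements for functions on the circle. -/

namespace Vale.P110.Slim

open Polynomial

theorem eval_part (ε : ℕ → ℂ) (n : ℕ) (z : ℂ) :
    (part ε n).eval z = ∑ k ∈ Finset.range n, ε k * z ^ k := by
  simp only [part, eval_finsetSum, eval_mul, eval_C, eval_pow, eval_X]

theorem nested (ε : ℕ → ℂ) (hε : ∀ k, ‖ε k‖ = 1) (L : ℕ → ℕ) (hL : ∀ j, 1 ≤ L j)
    (hflat : ∀ c : ℝ, 0 < c → ∃ J, ∀ j ≥ J, Flat (part ε (L j)) (L j) c) (δ : ℝ) (hδ : 0 < δ) :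
    ∃ J, ∀ i ≥ J, ∀ j ≥ J, L i ≤ L j →
      (L j : ℝ) ≤ (1 + δ) * L i ∨ (2 - δ) * L i ≤ L j := by
  obtain ⟨c, hc, h⟩ := FIN.ratio δ hδ
  obtain ⟨J, hJ⟩ := hflat c hc
  exact ⟨J, fun i hi j hj hij => h ε hε (L j) (L i) (hL j) hij (hJ j hj) (hJ i hi)⟩

end Vale.P110.Slim
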