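import Vale.Agent.P110.LargeFin
import Vale.Agent.P110.Slim

/-! P110: statements for integer sign sequences. -/

namespace Vale.P110.Comb

open Finset

/-- extend the signs by ones -/
noncomputable def ext (N : ℕ) (ε : ℕ → ℤ) (k : ℕ) : ℂ := if k < N then (ε k : ℂ) else 1

theorem norm_ext {N : ℕ} {ε : ℕ → ℤ} (h : ∀ k < N, ε k = 1 ∨ ε k = -1) (k : ℕ) :
    ‖ext N ε k‖ = 1 := by
  unfold ext
  split_ifs with hk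
  · rcases h k hk with h | h <;> rw [h] <;> simp
  · simp

theorem ps_ext {N : ℕ} {ε : ℕ → ℤ} {n : ℕ} (hn : n ≤ N) (z : ℂ) :
    Large.ps (ext N ε) n z = ∑ k ∈ range n, (ε k : ℂ) * z ^ k := by
  unfold Large.ps
  refine sum_congr rfl fun k hk => ?_
  rw [mem_range] at hk
  unfold ext
  rw [if_pos (by omega)]

/-- flatness for integer coefficients -/
def FlatZ (N : ℕ) (ε : ℕ → ℤ) (c : ℝ) : Prop :=
  ∀ z : ℂ, ‖z‖ = 1 → (1 - c) * √N ≤ ‖∑ k ∈ range N, (ε k : ℂ) * z ^ k‖ ∧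
    ‖∑ k ∈ range N, (ε k : ℂ) * z ^ k‖ ≤ (1 + c) * √N

theorem flat_ext {M N : ℕ} (hN : N ≤ M) {ε : ℕ → ℤ} {c : ℝ} (h : FlatZ N ε c) :
    Flat (part (ext M ε) N) N c := by
  intro z hz
  rw [Large.eval_part, ps_ext hN]
  exact h z hz

theorem pieces {N a : ℕ} {ε : ℕ → ℤ} (hε : ∀ k < N, ε k = 1 ∨ ε k = -1) {c : ℝ} (hN : 1 ≤ N)
    (ha : a ≤ N) (hc0 : 0 ≤ c) (hc1 : c < 1) (h : FlatZ N ε c) :
    ((1 / 2 + 2 / 3 * (1 / (1 - c) ^ 2 - 1)) * N < a →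
      ∃ z : ℂ, ‖z‖ = 1 ∧ ‖∑ k ∈ range N, (ε k : ℂ) * z ^ k‖ ≤
        ‖∑ k ∈ range a, (ε k : ℂ) * z ^ k‖) ∧
    ((1 / 2 + 2 / 3 * (1 / (1 - c) ^ 2 - 1)) * N < N - a →
      ∃ z : ℂ, ‖z‖ = 1 ∧ ‖∑ k ∈ range N, (ε k : ℂ) * z ^ k‖ ≤
        ‖∑ k ∈ range N, (ε k : ℂ) * z ^ k - ∑ k ∈ range a, (ε k : ℂ) * z ^ k‖) := by
  constructor
  · intro h2
    obtain ⟨z, hz, h3⟩ := Large.large (ext N ε) (norm_ext hε) N a hN ha c hc0 hc1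
      (flat_ext le_rfl h) h2
    rw [Large.eval_part, Large.eval_part, ps_ext le_rfl, ps_ext ha] at h3
    exact ⟨z, hz, h3⟩
  · intro h2
    obtain ⟨z, hz, h3⟩ := Large.large_tail (ext N ε) (norm_ext hε) N a hN ha c hc0 hc1
      (flat_ext le_rfl h) h2
    rw [ps_ext le_rfl, ps_ext ha] at h3
    exact ⟨z, hz, h3⟩

theorem limit (δ : ℝ) (hδ : 0 < δ) : ∃ c : ℝ, 0 < c ∧ ∀ (N a : ℕ) (ε : ℕ → ℤ),
    (∀ k < N, ε k = 1 ∨ ε k = -1) → 1 ≤ N → a ≤ N → FlatZ N ε c →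
      ((1 / 2 + δ) * N < a →
        ∃ z : ℂ, ‖z‖ = 1 ∧ (1 - δ) * √N ≤ ‖∑ k ∈ range a, (ε k : ℂ) * z ^ k‖) ∧
      ((1 / 2 + δ) * N < N - a →
        ∃ z : ℂ, ‖z‖ = 1 ∧ (1 - δ) * √N ≤
          ‖∑ k ∈ range N, (ε k : ℂ) * z ^ k - ∑ k ∈ range a, (ε k : ℂ) * z ^ k‖) := by
  obtain ⟨c, hc, h⟩ := Large.limit_form δ hδ
  refine ⟨c, hc, fun N a ε hε hN ha hfl => ?_⟩
  obtain ⟨h1, h2⟩ := h (ext N ε) (norm_ext hε) N hN (flat_ext le_rfl hfl) a ha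
  constructor
  · intro h3
    obtain ⟨z, hz, h4⟩ := h1 h3
    rw [ps_ext ha] at h4
    exact ⟨z, hz, h4⟩
  · intro h3
    obtain ⟨z, hz, h4⟩ := h2 h3
    rw [ps_ext ha, ps_ext le_rfl] at h4
    exact ⟨z, hz, h4⟩

theorem flat_all {ε : ℕ → ℤ} {n : ℕ} {c : ℝ} :
    Flat (part (fun k => (ε k : ℂ)) n) n c ↔ FlatZ n ε c := by
  unfold Flat FlatZ
  simp only [Large.eval_part]
  exact Iff.rfl

theorem gapZ (ε : ℕ → ℤ) (hε : ∀ k, ε k = 1 ∨ ε k = -1) (n : ℕ) (hn : 2 ≤ n) :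
    ∃ m, n ≤ m ∧ m ≤ 2 * n ∧ ¬ FlatZ m ε (1 / 20) := by
  have hu : ∀ k, ‖((ε k : ℤ) : ℂ)‖ = 1 := by
    intro k
    rcases hε k with h | h <;> rw [h] <;> simp
  obtain ⟨m, h1, h2, h3⟩ := FIN.gap (fun k => (ε k : ℂ)) hu n hn
  exact ⟨m, h1, h2, fun h => h3 (flat_all.2 h)⟩

theorem nestedZ (ε : ℕ → ℤ) (hε : ∀ k, ε k = 1 ∨ ε k = -1) (L : ℕ → ℕ) (hL : ∀ j, 1 ≤ L j)
    (hflat : ∀ c : ℝ, 0 < c → ∃ J, ∀ j ≥ J, FlatZ (L j) ε c) (δ : ℝ) (hδ : 0 < δ) :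
    ∃ J, ∀ i ≥ J, ∀ j ≥ J, L i ≤ L j →
      (L j : ℝ) ≤ (1 + δ) * L i ∨ (2 - δ) * L i ≤ L j := by
  have hu : ∀ k, ‖((ε k : ℤ) : ℂ)‖ = 1 := by
    intro k
    rcases hε k with h | h <;> rw [h] <;> simp
  refine Slim.nested (fun k => (ε k : ℂ)) hu L hL (fun c hc => ?_) δ hδ
  obtain ⟨J, hJ⟩ := hflat c hc
  exact ⟨J, fun j hj => flat_all.2 (hJ j hj)⟩

end Vale.P110.Comb
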