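import Mathlib

/-! P110: partial sums of unimodular sequences are not all flat. Interface. -/

namespace Vale.P110

open Polynomial

/-- the polynomial `∑_{k < n} ε_k z^k` -/
noncomputable def part (ε : ℕ → ℂ) (n : ℕ) : ℂ[X] := ∑ k ∈ Finset.range n, C (ε k) * X ^ k

/-- a polynomial `P` of length `n` is `c`-flat: `(1 - c) √n ≤ |P(z)| ≤ (1 + c) √n` for `|z| = 1` -/
def Flat (P : ℂ[X]) (n : ℕ) (c : ℝ) : Prop :=
  ∀ z : ℂ, ‖z‖ = 1 → (1 - c) * √n ≤ ‖P.eval z‖ ∧ ‖P.eval z‖ ≤ (1 + c) * √n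

/-- LOG: homotopy invariance of the winding number (`Q / P = 1 - (P - Q) / P` has positive real
part, take its logarithm). -/
def StmtLOG : Prop := ∀ P Q : ℂ[X],
  (∀ z : ℂ, ‖z‖ = 1 → ‖P.eval z - Q.eval z‖ < ‖P.eval z‖) →
  (∮ z in C(0, 1), P.derivative.eval z / P.eval z) =
    ∮ z in C(0, 1), Q.derivative.eval z / Q.eval z

/-- CNT: the winding number of `z^a B(z)` is an integer `≥ a` (partial fractions,
`Polynomial.Splits.eval_derivative_div_eval_of_ne_zero`, `circleIntegral.integral_sub_inv_of_mem_ball`). -/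
def StmtCNT : Prop := ∀ (a : ℕ) (B : ℂ[X]), (∀ z : ℂ, ‖z‖ = 1 → B.eval z ≠ 0) →
  ∃ m : ℕ, a ≤ m ∧
    (∮ z in C(0, 1), (X ^ a * B).derivative.eval z / (X ^ a * B).eval z) =
      2 * Real.pi * Complex.I * m

/-- MEAN: orthogonality of the powers on the circle. -/
def StmtMEAN : Prop := ∀ (N : ℕ) (u v : ℕ → ℂ),
  (∫ θ in (0 : ℝ)..2 * Real.pi, (∑ k ∈ Finset.range N, u k * circleMap 0 1 θ ^ k) *
    star (∑ k ∈ Finset.range N, v k * circleMap 0 1 θ ^ k)) =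
    2 * Real.pi * ∑ k ∈ Finset.range N, u k * star (v k)

/-- EST: the winding number of a flat polynomial is about half its length. -/
def StmtEST : Prop := ∀ (ε : ℕ → ℂ), (∀ k, ‖ε k‖ = 1) → ∀ N : ℕ, 1 ≤ N → ∀ c : ℝ, 0 ≤ c → c < 1 →
  Flat (part ε N) N c → ∀ m : ℕ,
  (∮ z in C(0, 1), (part ε N).derivative.eval z / (part ε N).eval z) =
    2 * Real.pi * Complex.I * m →
  (m : ℝ) ≤ (1 / 2 + 2 / 3 * (1 / (1 - c) ^ 2 - 1)) * N

end Vale.P110
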