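import Vale.Agent.P110.Defs

/-! P110: module EST. -/

namespace Vale.P110.EST

open Polynomial Finset

theorem sum_sq_le (N : ℕ) : ∑ k ∈ range N, ((k : ℝ)) ^ 2 ≤ (N : ℝ) ^ 3 / 3 := by
  induction N with
  | zero => simp
  | succ n ih =>
    rw [sum_range_succ]
    push_cast
    nlinarith [Nat.cast_nonneg (α := ℝ) n]

theorem sum_id_le (N : ℕ) : ∑ k ∈ range N, ((k : ℝ)) ≤ (N : ℝ) ^ 2 / 2 := by
  induction N with
  | zero => simp
  | succ n ih =>
    rw [sum_range_succ]
    push_cast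
    nlinarith [Nat.cast_nonneg (α := ℝ) n]

theorem re_div' (a b : ℂ) : (a / b).re = (a * star b).re / ‖b‖ ^ 2 := by
  rw [← Complex.normSq_eq_norm_sq, Complex.div_re, Complex.star_def, Complex.mul_re,
    Complex.conj_re, Complex.conj_im]
  ring

theorem thm (hM : StmtMEAN) : StmtEST := by
  intro ε hε N hN c hc0 hc1 hflat m hm
  set z : ℝ → ℂ := fun θ => circleMap 0 1 θ with hz
  have hz1 : ∀ θ, ‖z θ‖ = 1 := fun θ => by simp [hz]
  set P := part ε N with hP
  set p : ℝ → ℂ := fun θ => P.eval (z θ) with hp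
  set q : ℝ → ℂ := fun θ => z θ * P.derivative.eval (z θ) with hq
  have hpe : ∀ θ, p θ = ∑ k ∈ range N, ε k * z θ ^ k := by
    intro θ
    simp only [hp, hP, part, eval_finsetSum, eval_mul, eval_C, eval_pow, eval_X]
  have hqe : ∀ θ, q θ = ∑ k ∈ range N, ((k : ℂ) * ε k) * z θ ^ k := by
    intro θ
    simp only [hq, hP, part, derivative_sum, eval_finsetSum, mul_sum]
    refine sum_congr rfl fun k _ => ?_
    rw [derivative_C_mul_X_pow, eval_mul, eval_C, eval_pow, eval_X]
    rcases k with _ | k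
    · simp
    · rw [Nat.add_sub_cancel, pow_succ]
      ring
  have hcz : Continuous z := continuous_circleMap 0 1
  have hcp : Continuous p := P.continuous.comp hcz
  have hcq : Continuous q := hcz.mul (P.derivative.continuous.comp hcz)
  have hNr : (1 : ℝ) ≤ N := by exact_mod_cast hN
  have hsq : √(N : ℝ) ^ 2 = N := Real.sq_sqrt (by positivity)
  have hspos : 0 < √(N : ℝ) := Real.sqrt_pos.2 (by positivity)
  have hc1' : 0 < 1 - c := by linarith
  have hR1 : ∀ θ, (1 - c) ^ 2 * N ≤ ‖p θ‖ ^ 2 := by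
    intro θ
    have h := (hflat (z θ) (hz1 θ)).1
    calc (1 - c) ^ 2 * N = ((1 - c) * √N) ^ 2 := by rw [mul_pow, hsq]
      _ ≤ ‖p θ‖ ^ 2 := pow_le_pow_left₀ (by positivity) h 2
  have hR2 : ∀ θ, ‖p θ‖ ^ 2 ≤ (1 + c) ^ 2 * N := by
    intro θ
    have h := (hflat (z θ) (hz1 θ)).2
    calc ‖p θ‖ ^ 2 ≤ ((1 + c) * √N) ^ 2 := pow_le_pow_left₀ (norm_nonneg _) h 2
      _ = (1 + c) ^ 2 * N := by rw [mul_pow, hsq]
  have hp0 : ∀ θ, p θ ≠ 0 := by
    intro θ h
    have h1 := hR1 θ
    rw [h, norm_zero] at h1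
    have : 0 < (1 - c) ^ 2 * (N : ℝ) := by positivity
    norm_num at h1
    linarith
  -- the winding number as an integral over `[0, 2π]`
  have h1 : ∫ θ in (0 : ℝ)..2 * Real.pi, q θ / p θ = 2 * Real.pi * m := by
    have e : (∮ z in C(0, 1), P.derivative.eval z / P.eval z) =
        Complex.I * ∫ θ in (0 : ℝ)..2 * Real.pi, q θ / p θ := by
      rw [circleIntegral, ← intervalIntegral.integral_const_mul]
      refine intervalIntegral.integral_congr fun θ _ => ?_
      simp only [deriv_circleMap, smul_eq_mul, hq, hp, hz]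
      ring
    rw [e] at hm
    have : Complex.I * (∫ θ in (0 : ℝ)..2 * Real.pi, q θ / p θ) =
        Complex.I * (2 * Real.pi * m) := by
      rw [hm]
      ring
    exact mul_left_cancel₀ Complex.I_ne_zero this
  -- Parseval
  have hM1 : ∫ θ in (0 : ℝ)..2 * Real.pi, q θ * star (p θ) =
      2 * Real.pi * ∑ k ∈ range N, (k : ℂ) := by
    have h := hM N (fun k => (k : ℂ) * ε k) ε
    have e : ∀ k : ℕ, (k : ℂ) * ε k * star (ε k) = k := by
      intro k
      have : ε k * star (ε k) = 1 := by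
        rw [Complex.star_def, Complex.mul_conj, Complex.normSq_eq_norm_sq, hε k]
        simp
      rw [mul_assoc, this, mul_one]
    simp only [e] at h
    rw [← h]
    refine intervalIntegral.integral_congr fun θ _ => ?_
    simp only [hqe, hpe, hz]
  have hM2 : ∫ θ in (0 : ℝ)..2 * Real.pi, p θ * star (p θ) = 2 * Real.pi * N := by
    have h := hM N ε ε
    have e : ∀ k : ℕ, ε k * star (ε k) = 1 := by
      intro k
      rw [Complex.star_def, Complex.mul_conj, Complex.normSq_eq_norm_sq, hε k]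
      simp
    simp only [e, sum_const, card_range, nsmul_eq_mul, mul_one] at h
    rw [← h]
    refine intervalIntegral.integral_congr fun θ _ => ?_
    simp only [hpe, hz]
  have hM3 : ∫ θ in (0 : ℝ)..2 * Real.pi, q θ * star (q θ) =
      2 * Real.pi * ∑ k ∈ range N, (k : ℂ) ^ 2 := by
    have h := hM N (fun k => (k : ℂ) * ε k) (fun k => (k : ℂ) * ε k)
    have e : ∀ k : ℕ, (k : ℂ) * ε k * star ((k : ℂ) * ε k) = (k : ℂ) ^ 2 := by
      intro k
      have h1 : ε k * star (ε k) = 1 := by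
        rw [Complex.star_def, Complex.mul_conj, Complex.normSq_eq_norm_sq, hε k]
        simp
      have h2 : star ((k : ℂ) * ε k) = (k : ℂ) * star (ε k) := by
        rw [star_mul', Complex.star_def, Complex.conj_natCast]
      rw [h2]
      calc (k : ℂ) * ε k * (k * star (ε k)) = (k : ℂ) ^ 2 * (ε k * star (ε k)) := by ring
        _ = _ := by rw [h1, mul_one]
    simp only [e] at h
    rw [← h]
    refine intervalIntegral.integral_congr fun θ _ => ?_
    simp only [hqe, hz]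
  -- real parts
  have re_int : ∀ f : ℝ → ℂ, Continuous f →
      (∫ θ in (0 : ℝ)..2 * Real.pi, f θ).re = ∫ θ in (0 : ℝ)..2 * Real.pi, (f θ).re := by
    intro f hf
    exact (Complex.reCLM.intervalIntegral_comp_comm (hf.intervalIntegrable _ _)).symm
  have hcs : ∀ f g : ℝ → ℂ, Continuous f → Continuous g → Continuous fun θ => f θ * star (g θ) :=
    fun f g hf hg => hf.mul (continuous_star.comp hg)
  have r1 : ∫ θ in (0 : ℝ)..2 * Real.pi, (q θ * star (p θ)).re =
      2 * Real.pi * ∑ k ∈ range N, (k : ℝ) := by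
    rw [← re_int _ (hcs q p hcq hcp), hM1]
    have : (2 * (Real.pi : ℂ) * ∑ k ∈ range N, (k : ℂ)) =
        ((2 * Real.pi * ∑ k ∈ range N, (k : ℝ) : ℝ) : ℂ) := by push_cast; ring
    rw [this, Complex.ofReal_re]
  have nsq : ∀ w : ℂ, (w * star w).re = ‖w‖ ^ 2 := by
    intro w
    rw [Complex.star_def, Complex.mul_conj, Complex.normSq_eq_norm_sq, Complex.ofReal_re]
  have r2 : ∫ θ in (0 : ℝ)..2 * Real.pi, ‖p θ‖ ^ 2 = 2 * Real.pi * N := by
    have h := re_int _ (hcs p p hcp hcp)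
    rw [hM2] at h
    simp only [nsq] at h
    rw [← h]
    have : (2 * (Real.pi : ℂ) * (N : ℂ)) = ((2 * Real.pi * N : ℝ) : ℂ) := by push_cast; ring
    rw [this, Complex.ofReal_re]
  have r3 : ∫ θ in (0 : ℝ)..2 * Real.pi, ‖q θ‖ ^ 2 =
      2 * Real.pi * ∑ k ∈ range N, (k : ℝ) ^ 2 := by
    have h := re_int _ (hcs q q hcq hcq)
    rw [hM3] at h
    simp only [nsq] at h
    rw [← h]
    have : (2 * (Real.pi : ℂ) * ∑ k ∈ range N, (k : ℂ) ^ 2) =
        ((2 * Real.pi * ∑ k ∈ range N, (k : ℝ) ^ 2 : ℝ) : ℂ) := by push_cast; ring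
    rw [this, Complex.ofReal_re]
  have hcqp : Continuous fun θ => q θ / p θ := hcq.div hcp hp0
  have r0 : ∫ θ in (0 : ℝ)..2 * Real.pi, (q θ / p θ).re = 2 * Real.pi * m := by
    rw [← re_int _ hcqp, h1]
    have : (2 * (Real.pi : ℂ) * (m : ℂ)) = ((2 * Real.pi * m : ℝ) : ℂ) := by push_cast; ring
    rw [this, Complex.ofReal_re]
  set κ : ℝ := 1 / (1 - c) ^ 2 - 1 with hκ
  have hκ0 : 0 ≤ κ := by
    rw [hκ, sub_nonneg, le_div_iff₀ (by positivity)]
    nlinarith
  have hκ2 : 1 - 1 / (1 + c) ^ 2 ≤ κ := by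
    rw [hκ]
    have h1 : 0 < (1 - c) ^ 2 := by positivity
    have h2 : 0 < (1 + c) ^ 2 := by positivity
    have : 0 ≤ 1 / (1 - c) ^ 2 + 1 / (1 + c) ^ 2 - 2 := by
      have h3 : 1 / (1 - c) ^ 2 + 1 / (1 + c) ^ 2 - 2 =
          (2 * c ^ 2 * (3 - c ^ 2)) / ((1 - c) ^ 2 * (1 + c) ^ 2) := by
        field_simp
        ring
      rw [h3]
      apply div_nonneg _ (by positivity)
      have : 0 ≤ 3 - c ^ 2 := by nlinarith
      positivity
    linarith
  -- the pointwise bound
  have hpt : ∀ θ, (q θ / p θ).re ≤ (q θ * star (p θ)).re / N +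
      κ / (2 * N) * (‖q θ‖ ^ 2 / N + N * ‖p θ‖ ^ 2) := by
    intro θ
    have hRpos : 0 < ‖p θ‖ ^ 2 := by
      have := norm_pos_iff.2 (hp0 θ)
      positivity
    have e1 : (q θ / p θ).re = (q θ * star (p θ)).re / ‖p θ‖ ^ 2 := re_div' _ _
    set D : ℝ := (q θ * star (p θ)).re with hD
    set R : ℝ := ‖p θ‖ ^ 2 with hRd
    have hDle : |D| ≤ ‖q θ‖ * ‖p θ‖ := by
      calc |D| ≤ ‖q θ * star (p θ)‖ := Complex.abs_re_le_norm _
        _ = ‖q θ‖ * ‖p θ‖ := by rw [norm_mul, norm_star]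
    have hDle2 : |D| ≤ (‖q θ‖ ^ 2 / N + N * R) / 2 := by
      refine hDle.trans ?_
      have hN0 : (0 : ℝ) < N := by linarith
      have h3 : ‖q θ‖ ^ 2 / N + N * ‖p θ‖ ^ 2 - 2 * (‖q θ‖ * ‖p θ‖) =
          (‖q θ‖ - N * ‖p θ‖) ^ 2 / N := by
        field_simp
        ring
      have h4 : 0 ≤ (‖q θ‖ - N * ‖p θ‖) ^ 2 / N := by positivity
      rw [hRd]
      linarith
    have hN0 : (0 : ℝ) < N := by linarith
    have hdiff : |1 / R - 1 / N| ≤ κ / N := by
      have a1 : 1 / R ≤ 1 / ((1 - c) ^ 2 * N) :=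
        one_div_le_one_div_of_le (by positivity) (hR1 θ)
      have a2 : 1 / ((1 + c) ^ 2 * N) ≤ 1 / R := one_div_le_one_div_of_le hRpos (hR2 θ)
      have b1 : 1 / ((1 - c) ^ 2 * N) - 1 / N = κ / N := by
        rw [hκ]
        field_simp
      have b2 : 1 / N - 1 / ((1 + c) ^ 2 * N) = (1 - 1 / (1 + c) ^ 2) / N := by
        field_simp
      have b3 : (1 - 1 / (1 + c) ^ 2) / N ≤ κ / N := div_le_div_of_nonneg_right hκ2 hN0.le
      rw [abs_le]
      constructor <;> linarith
    have e2 : D / R - D / N = D * (1 / R - 1 / N) := by ring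
    have e3 : D * (1 / R - 1 / N) ≤ |D| * (κ / N) := by
      calc D * (1 / R - 1 / N) ≤ |D * (1 / R - 1 / N)| := le_abs_self _
        _ = |D| * |1 / R - 1 / N| := abs_mul _ _
        _ ≤ |D| * (κ / N) := mul_le_mul_of_nonneg_left hdiff (abs_nonneg _)
    have e4 : |D| * (κ / N) ≤ (‖q θ‖ ^ 2 / N + N * R) / 2 * (κ / N) :=
      mul_le_mul_of_nonneg_right hDle2 (by positivity)
    have e5 : (‖q θ‖ ^ 2 / N + N * R) / 2 * (κ / N) =
        κ / (2 * N) * (‖q θ‖ ^ 2 / N + N * R) := by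
      field_simp
    rw [e1]
    linarith
  have hmono : ∫ θ in (0 : ℝ)..2 * Real.pi, (q θ / p θ).re ≤
      ∫ θ in (0 : ℝ)..2 * Real.pi, ((q θ * star (p θ)).re / N +
        κ / (2 * N) * (‖q θ‖ ^ 2 / N + N * ‖p θ‖ ^ 2)) := by
    apply intervalIntegral.integral_mono_on (by positivity)
    · exact (Complex.continuous_re.comp hcqp).intervalIntegrable _ _
    · apply Continuous.intervalIntegrable
      exact ((Complex.continuous_re.comp (hcs q p hcq hcp)).div_const _).add
        (continuous_const.mul (((hcq.norm.pow 2).div_const _).add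
          (continuous_const.mul (hcp.norm.pow 2))))
    · intro θ _
      exact hpt θ
  have hval : ∫ θ in (0 : ℝ)..2 * Real.pi, ((q θ * star (p θ)).re / N +
        κ / (2 * N) * (‖q θ‖ ^ 2 / N + N * ‖p θ‖ ^ 2)) =
      (2 * Real.pi * ∑ k ∈ range N, (k : ℝ)) / N + κ / (2 * N) *
        ((2 * Real.pi * ∑ k ∈ range N, (k : ℝ) ^ 2) / N + N * (2 * Real.pi * N)) := by
    have i1 : IntervalIntegrable (fun θ => (q θ * star (p θ)).re / N) MeasureTheory.volume 0
        (2 * Real.pi) :=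
      ((Complex.continuous_re.comp (hcs q p hcq hcp)).div_const _).intervalIntegrable _ _
    have i2 : IntervalIntegrable (fun θ => ‖q θ‖ ^ 2 / N) MeasureTheory.volume 0
        (2 * Real.pi) := ((hcq.norm.pow 2).div_const _).intervalIntegrable _ _
    have i3 : IntervalIntegrable (fun θ => N * ‖p θ‖ ^ 2) MeasureTheory.volume 0
        (2 * Real.pi) := (continuous_const.mul (hcp.norm.pow 2)).intervalIntegrable _ _
    rw [intervalIntegral.integral_add i1 ((i2.add i3).const_mul _),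
      intervalIntegral.integral_div, intervalIntegral.integral_const_mul,
      intervalIntegral.integral_add i2 i3, intervalIntegral.integral_div,
      intervalIntegral.integral_const_mul, r1, r2, r3]
  rw [r0, hval] at hmono
  have hpi := Real.pi_pos
  have s1 := sum_id_le N
  have s2 := sum_sq_le N
  have hN0 : (0 : ℝ) < N := by linarith
  have t1 : (2 * Real.pi * ∑ k ∈ range N, (k : ℝ)) / N ≤ 2 * Real.pi * (N / 2) := by
    rw [div_le_iff₀ hN0]
    nlinarith [mul_le_mul_of_nonneg_left s1 hpi.le]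
  have t2 : (2 * Real.pi * ∑ k ∈ range N, (k : ℝ) ^ 2) / N ≤ 2 * Real.pi * (N ^ 2 / 3) := by
    rw [div_le_iff₀ hN0]
    nlinarith [mul_le_mul_of_nonneg_left s2 hpi.le]
  have t3 : κ / (2 * N) * ((2 * Real.pi * ∑ k ∈ range N, (k : ℝ) ^ 2) / N +
      N * (2 * Real.pi * N)) ≤ κ / (2 * N) * (2 * Real.pi * (N ^ 2 / 3) + N * (2 * Real.pi * N)) := by
    apply mul_le_mul_of_nonneg_left _ (by positivity)
    linarith
  have t4 : κ / (2 * N) * (2 * Real.pi * (N ^ 2 / 3) + N * (2 * Real.pi * N)) =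
      2 * Real.pi * (2 / 3 * κ * N) := by
    field_simp
    ring
  have t5 : 2 * Real.pi * (m : ℝ) ≤ 2 * Real.pi * ((1 / 2 + 2 / 3 * κ) * N) := by
    have : 2 * Real.pi * ((1 / 2 + 2 / 3 * κ) * N) =
        2 * Real.pi * (N / 2) + 2 * Real.pi * (2 / 3 * κ * N) := by ring
    rw [this]
    linarith
  exact le_of_mul_le_mul_left t5 (by positivity)

end Vale.P110.EST
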