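import Mathlib
import Vale.Agent.P110.Defs

open Polynomial Metric

namespace Vale.P110.LOG

theorem thm : StmtLOG := by
  intro P Q h
  have hP : ∀ z ∈ sphere (0 : ℂ) 1, P.eval z ≠ 0 := by
    intro z hz h0
    have h1 := h z (by simpa using hz)
    rw [h0, norm_zero] at h1
    exact absurd (norm_nonneg _) (not_le.2 h1)
  have hslit : ∀ z ∈ sphere (0 : ℂ) 1, Q.eval z / P.eval z ∈ Complex.slitPlane := by
    intro z hz
    have h1 := h z (by simpa using hz)
    have h2 : ‖1 - Q.eval z / P.eval z‖ < 1 := by
      have e : 1 - Q.eval z / P.eval z = (P.eval z - Q.eval z) / P.eval z := by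
        rw [sub_div, div_self (hP z hz)]
      rw [e, norm_div, div_lt_one (norm_pos_iff.2 (hP z hz))]
      exact h1
    left
    have h3 := (Complex.abs_re_le_norm (1 - Q.eval z / P.eval z)).trans_lt h2
    rw [Complex.sub_re, Complex.one_re] at h3
    have h4 := (abs_lt.1 h3).2
    linarith
  have hQ : ∀ z ∈ sphere (0 : ℂ) 1, Q.eval z ≠ 0 := by
    intro z hz h0
    have h1 := hslit z hz
    rw [h0, zero_div] at h1
    exact Complex.slitPlane_ne_zero h1 rfl
  have hz := circleIntegral.integral_eq_zero_of_hasDerivWithinAt (c := (0 : ℂ)) (R := 1)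
    (f := fun z => Complex.log (Q.eval z / P.eval z))
    (f' := fun z => Q.derivative.eval z / Q.eval z - P.derivative.eval z / P.eval z)
    zero_le_one (by
      intro z hz
      have h1 : HasDerivAt (fun z => Q.eval z / P.eval z)
          ((Q.derivative.eval z * P.eval z - Q.eval z * P.derivative.eval z) / P.eval z ^ 2) z :=
        (Q.hasDerivAt z).div (P.hasDerivAt z) (hP z hz)
      have h2 := (h1.clog (hslit z hz)).hasDerivWithinAt (s := sphere (0 : ℂ) 1)
      convert h2 using 1
      have hp := hP z hz
      have hq := hQ z hz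
      field_simp)
  have iP : CircleIntegrable (fun z => P.derivative.eval z / P.eval z) 0 1 :=
    ContinuousOn.circleIntegrable zero_le_one
      (P.derivative.continuous.continuousOn.div P.continuous.continuousOn hP)
  have iQ : CircleIntegrable (fun z => Q.derivative.eval z / Q.eval z) 0 1 :=
    ContinuousOn.circleIntegrable zero_le_one
      (Q.derivative.continuous.continuousOn.div Q.continuous.continuousOn hQ)
  rw [circleIntegral.integral_sub iQ iP] at hz
  exact (sub_eq_zero.1 hz).symm

end Vale.P110.LOG
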