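import Vale.Agent.P110.EST
import Vale.Agent.P110.LOG
import Vale.Agent.P110.CNT
import Vale.Agent.P110.MEAN

/-! P110: final assembly. -/

namespace Vale.P110.FIN

open Polynomial Finset

theorem part_add (ε : ℕ → ℂ) (a b : ℕ) :
    part ε (a + b) = part ε a + X ^ a * part (fun k => ε (a + k)) b := by
  unfold part
  rw [sum_range_add, mul_sum]
  congr 1
  refine sum_congr rfl fun k _ => ?_
  rw [pow_add]
  ring

/-- a flat polynomial and a flat prefix -/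
theorem main (ε : ℕ → ℂ) (hε : ∀ k, ‖ε k‖ = 1) (N a : ℕ) (hN : 1 ≤ N) (haN : a ≤ N) (c : ℝ)
    (hc0 : 0 ≤ c) (hc1 : c < 1) (h1 : Flat (part ε N) N c) (h2 : Flat (part ε a) a c) :
    (1 - c) ^ 2 * N ≤ (1 + c) ^ 2 * a ∨
      (a : ℝ) ≤ (1 / 2 + 2 / 3 * (1 / (1 - c) ^ 2 - 1)) * N := by
  by_cases hlt : (1 - c) ^ 2 * (N : ℝ) ≤ (1 + c) ^ 2 * a
  · exact Or.inl hlt
  · right
    push Not at hlt
    have hsq : (1 + c) * √(a : ℝ) < (1 - c) * √(N : ℝ) := by
      have e1 : ((1 + c) * √(a : ℝ)) ^ 2 = (1 + c) ^ 2 * a := by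
        rw [mul_pow, Real.sq_sqrt (by positivity)]
      have e2 : ((1 - c) * √(N : ℝ)) ^ 2 = (1 - c) ^ 2 * N := by
        rw [mul_pow, Real.sq_sqrt (by positivity)]
      have h0 : 0 ≤ (1 - c) * √(N : ℝ) := mul_nonneg (by linarith) (Real.sqrt_nonneg _)
      exact lt_of_pow_lt_pow_left₀ 2 h0 (by rw [e1, e2]; exact hlt)
    obtain ⟨b, rfl⟩ := Nat.exists_eq_add_of_le haN
    set B : ℂ[X] := part (fun k => ε (a + k)) b with hB
    have hdec : part ε (a + b) = part ε a + X ^ a * B := part_add ε a b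
    have hlt' : ∀ z : ℂ, ‖z‖ = 1 →
        ‖(part ε (a + b)).eval z - (X ^ a * B).eval z‖ < ‖(part ε (a + b)).eval z‖ := by
      intro z hz
      have e : (part ε (a + b)).eval z - (X ^ a * B).eval z = (part ε a).eval z := by
        rw [hdec, eval_add]
        ring
      rw [e]
      exact ((h2 z hz).2.trans_lt hsq).trans_le (h1 z hz).1
    have hB0 : ∀ z : ℂ, ‖z‖ = 1 → B.eval z ≠ 0 := by
      intro z hz h0
      have h3 := hlt' z hz
      rw [eval_mul, h0, mul_zero, sub_zero] at h3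
      exact lt_irrefl _ h3
    obtain ⟨m, ham, hm⟩ := CNT.thm a B hB0
    have hlog := LOG.thm _ _ hlt'
    rw [hm] at hlog
    have hest := EST.thm MEAN.thm ε hε (a + b) hN c hc0 hc1 h1 m hlog
    have : (a : ℝ) ≤ m := by exact_mod_cast ham
    exact this.trans hest

theorem flat_mono {P : ℂ[X]} {n : ℕ} {c c' : ℝ} (h : Flat P n c) (hc : c ≤ c') : Flat P n c' := by
  intro z hz
  obtain ⟨h1, h2⟩ := h z hz
  have h0 : 0 ≤ √(n : ℝ) := Real.sqrt_nonneg _
  constructor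
  · nlinarith
  · nlinarith

/-- some partial sum of length in `[n, 2n]` is not flat -/
theorem gap (ε : ℕ → ℂ) (hε : ∀ k, ‖ε k‖ = 1) (n : ℕ) (hn : 2 ≤ n) :
    ∃ m, n ≤ m ∧ m ≤ 2 * n ∧ ¬ Flat (part ε m) m (1 / 20) := by
  by_contra hcon
  push Not at hcon
  have h1 := hcon (2 * n) (by omega) le_rfl
  have h2 := hcon (n + n / 2) (by omega) (by omega)
  have h := main ε hε (2 * n) (n + n / 2) (by omega) (by omega) (1 / 20) (by norm_num)
    (by norm_num) h1 h2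
  have e1 : 4 * (n + n / 2) ≤ 6 * n := by omega
  have e2 : 5 * n ≤ 4 * (n + n / 2) := by omega
  have e1' : 4 * ((n + n / 2 : ℕ) : ℝ) ≤ 6 * n := by exact_mod_cast e1
  have e2' : 5 * (n : ℝ) ≤ 4 * ((n + n / 2 : ℕ) : ℝ) := by exact_mod_cast e2
  have hn' : (2 : ℝ) ≤ n := by exact_mod_cast hn
  rcases h with h | h
  · push_cast at h
    norm_num at h
    push_cast at e1'
    nlinarith
  · push_cast at h
    norm_num at h
    push_cast at e2'
    nlinarith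

/-- lengths of flat partial sums cannot have ratio in `[1 + δ, 2 - δ]` -/
theorem ratio (δ : ℝ) (hδ : 0 < δ) : ∃ c : ℝ, 0 < c ∧ ∀ (ε : ℕ → ℂ), (∀ k, ‖ε k‖ = 1) →
    ∀ N a : ℕ, 1 ≤ N → a ≤ N → Flat (part ε N) N c → Flat (part ε a) a c →
      (N : ℝ) ≤ (1 + δ) * a ∨ (2 - δ) * a ≤ N := by
  -- by continuity choose `c`
  have hc1 : Filter.Tendsto (fun c : ℝ => (1 + c) ^ 2 / (1 - c) ^ 2) (nhds 0) (nhds 1) := by
    have : ContinuousAt (fun c : ℝ => (1 + c) ^ 2 / (1 - c) ^ 2) 0 := by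
      apply ContinuousAt.div (by fun_prop) (by fun_prop)
      norm_num
    have h := this.tendsto
    norm_num at h
    exact h
  have hc2 : Filter.Tendsto (fun c : ℝ => (2 - δ) * (1 / 2 + 2 / 3 * (1 / (1 - c) ^ 2 - 1)))
      (nhds 0) (nhds ((2 - δ) * (1 / 2))) := by
    have : ContinuousAt (fun c : ℝ => (2 - δ) * (1 / 2 + 2 / 3 * (1 / (1 - c) ^ 2 - 1))) 0 := by
      apply ContinuousAt.mul (by fun_prop)
      apply ContinuousAt.add (by fun_prop)
      apply ContinuousAt.mul (by fun_prop)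
      apply ContinuousAt.sub _ (by fun_prop)
      apply ContinuousAt.div (by fun_prop) (by fun_prop)
      norm_num
    have h := this.tendsto
    norm_num at h
    norm_num
    exact h
  have ev1 : ∀ᶠ c : ℝ in nhds 0, (1 + c) ^ 2 / (1 - c) ^ 2 < 1 + δ :=
    hc1.eventually (gt_mem_nhds (by linarith))
  have ev2 : ∀ᶠ c : ℝ in nhds 0, (2 - δ) * (1 / 2 + 2 / 3 * (1 / (1 - c) ^ 2 - 1)) < 1 :=
    hc2.eventually (gt_mem_nhds (by linarith))
  have ev3 : ∀ᶠ c : ℝ in nhds 0, c < 1 := gt_mem_nhds (by norm_num)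
  obtain ⟨c, hc, hcpos⟩ := (((ev1.and (ev2.and ev3)).filter_mono nhdsWithin_le_nhds).and
    (self_mem_nhdsWithin : Set.Ioi (0 : ℝ) ∈ nhdsWithin 0 (Set.Ioi 0))).exists
  obtain ⟨g1, g2, g3⟩ := hc
  have hcpos' : (0 : ℝ) < c := hcpos
  refine ⟨c, hcpos', fun ε hε N a hN haN h1 h2 => ?_⟩
  have hNr : (1 : ℝ) ≤ N := by exact_mod_cast hN
  have ha0 : (0 : ℝ) ≤ a := Nat.cast_nonneg a
  have hpos : 0 < (1 - c) ^ 2 := by
    have : 0 < 1 - c := by linarith
    positivity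
  rcases main ε hε N a hN haN c hcpos'.le g3 h1 h2 with h | h
  · left
    rw [div_lt_iff₀ hpos] at g1
    have h3 : (1 - c) ^ 2 * (N : ℝ) ≤ (1 - c) ^ 2 * ((1 + δ) * a) := by
      calc (1 - c) ^ 2 * (N : ℝ) ≤ (1 + c) ^ 2 * a := h
        _ ≤ ((1 + δ) * (1 - c) ^ 2) * a := mul_le_mul_of_nonneg_right g1.le ha0
        _ = (1 - c) ^ 2 * ((1 + δ) * a) := by ring
    exact le_of_mul_le_mul_left h3 hpos
  · right
    by_cases h2δ : 2 - δ ≤ 0
    · nlinarith
    · push Not at h2δ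
      calc (2 - δ) * (a : ℝ) ≤ (2 - δ) * ((1 / 2 + 2 / 3 * (1 / (1 - c) ^ 2 - 1)) * N) :=
            mul_le_mul_of_nonneg_left h h2δ.le
        _ = ((2 - δ) * (1 / 2 + 2 / 3 * (1 / (1 - c) ^ 2 - 1))) * N := by ring
        _ ≤ 1 * N := mul_le_mul_of_nonneg_right g2.le (by positivity)
        _ = N := one_mul _

end Vale.P110.FIN
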