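import Mathlib

/-! # P110: Littlewood polynomials of every large length with maximum `≤ (√2 + c) √N` (helper18) -/

namespace Vale.P110
open Finset BigOperators

/-- the polynomial `∑_{k<N} ε_k z^k` -/
noncomputable def lit (N : ℕ) (e : ℕ → ℤ) (z : ℂ) : ℂ := ∑ k ∈ range N, ((e k : ℤ) : ℂ) * z ^ k

/-- the first `N` coefficients are `±1` -/
def Signs (N : ℕ) (e : ℕ → ℤ) : Prop := ∀ k < N, e k = 1 ∨ e k = -1

/-- GOL : a Golay polynomial of length `2^a 10^b`. -/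
def StmtGOL : Prop :=
  ∀ a b : ℕ, ∃ e : ℕ → ℤ, Signs (2 ^ a * 10 ^ b) e ∧
    ∀ z : ℂ, ‖z‖ = 1 → ‖lit (2 ^ a * 10 ^ b) e z‖ ≤ Real.sqrt (2 * ((2 ^ a * 10 ^ b : ℕ) : ℝ))

end Vale.P110
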