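import Vale.Agent.P110.GDefs

/-! # P110: Golay pairs (helper18) -/

namespace Vale.P110.GOL
open Finset BigOperators Vale.P110 ComplexConjugate

/-- a Golay pair of length `n` -/
def Gol (n : ℕ) (a b : ℕ → ℤ) : Prop :=
  Signs n a ∧ Signs n b ∧ ∀ z : ℂ, ‖z‖ = 1 →
    lit n a z * conj (lit n a z) + lit n b z * conj (lit n b z) = 2 * n

theorem sum_block (m n : ℕ) (F : ℕ → ℂ) :
    ∑ k ∈ range (m * n), F k = ∑ j ∈ range n, ∑ i ∈ range m, F (m * j + i) := by
  induction n with
  | zero => simp
  | succ n ih =>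
    rw [Nat.mul_succ, Finset.sum_range_add, ih, Finset.sum_range_succ]

theorem conj_eq_inv {z : ℂ} (hz : ‖z‖ = 1) : conj z = z⁻¹ := by
  rw [Complex.inv_def]
  rw [Complex.normSq_eq_norm_sq, hz]
  simp

theorem zne {z : ℂ} (hz : ‖z‖ = 1) : z ≠ 0 := by
  intro h
  rw [h] at hz
  simp at hz

/-- reversed polynomial on the unit circle -/
theorem rev_eq (n : ℕ) (d : ℕ → ℤ) {w : ℂ} (hw : ‖w‖ = 1) :
    ∑ j ∈ range n, ((d (n - 1 - j) : ℤ) : ℂ) * w ^ j = w ^ (n - 1) * conj (lit n d w) := by
  unfold lit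
  rw [map_sum, Finset.mul_sum]
  rw [← Finset.sum_range_reflect]
  refine Finset.sum_congr rfl fun j hj => ?_
  have hj' : j < n := Finset.mem_range.mp hj
  have h1 : n - 1 - (n - 1 - j) = j := by omega
  rw [h1, map_mul, map_pow, conj_eq_inv hw]
  have h2 : conj ((d j : ℤ) : ℂ) = ((d j : ℤ) : ℂ) := map_intCast (starRingEnd ℂ) (d j)
  rw [h2]
  have h3 : w ^ (n - 1) = w ^ (n - 1 - j) * w ^ j := by
    rw [← pow_add]
    congr 1
    omega
  rw [h3, inv_pow]
  have h4 : w ^ j ≠ 0 := pow_ne_zero _ (zne hw)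
  field_simp

theorem mul {m n : ℕ} {a b c d : ℕ → ℤ} (hm : 0 < m) (hab : Gol m a b) (hcd : Gol n c d) :
    ∃ e f : ℕ → ℤ, Gol (m * n) e f := by
  obtain ⟨ha, hb, h1⟩ := hab
  obtain ⟨hc, hd, h2⟩ := hcd
  set e : ℕ → ℤ := fun k => if a (k % m) = b (k % m) then a (k % m) * c (k / m)
    else a (k % m) * d (n - 1 - k / m) with he
  set f : ℕ → ℤ := fun k => if a (k % m) = b (k % m) then a (k % m) * d (k / m)
    else -(a (k % m) * c (n - 1 - k / m)) with hf
  have hs : ∀ {x y : ℤ}, (x = 1 ∨ x = -1) → (y = 1 ∨ y = -1) → (x * y = 1 ∨ x * y = -1) := by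
    intro x y hx hy
    rcases hx with rfl | rfl <;> rcases hy with rfl | rfl <;> simp
  have hk1 : ∀ k, k < m * n → k % m < m := fun k _ => Nat.mod_lt _ hm
  have hk2 : ∀ k, k < m * n → k / m < n := fun k hk => Nat.div_lt_of_lt_mul hk
  have hE : ∀ z : ℂ, ‖z‖ = 1 → lit (m * n) e z =
      ((lit m a z + lit m b z) / 2) * lit n c (z ^ m) +
      ((lit m a z - lit m b z) / 2) * ((z ^ m) ^ (n - 1) * conj (lit n d (z ^ m))) := by
    intro z hz
    have hzm : ‖z ^ m‖ = 1 := by rw [norm_pow, hz, one_pow]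
    rw [← rev_eq n d hzm]
    unfold lit
    rw [sum_block, ← Finset.sum_add_distrib, ← Finset.sum_sub_distrib, Finset.mul_sum,
      Finset.mul_sum, ← Finset.sum_add_distrib]
    refine Finset.sum_congr rfl fun j _ => ?_
    rw [Finset.sum_div, Finset.sum_div, Finset.sum_mul, Finset.sum_mul, ← Finset.sum_add_distrib]
    refine Finset.sum_congr rfl fun i hi => ?_
    have hi' : i < m := Finset.mem_range.mp hi
    have e1 : (m * j + i) % m = i := by
      rw [Nat.mul_add_mod, Nat.mod_eq_of_lt hi']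
    have e2 : (m * j + i) / m = j := by
      rw [Nat.mul_add_div hm, Nat.div_eq_of_lt hi', add_zero]
    have e3 : z ^ (m * j + i) = (z ^ m) ^ j * z ^ i := by
      rw [pow_add, pow_mul]
    rw [he]
    simp only [e1, e2, e3]
    split_ifs with h
    · rw [← h]
      push_cast
      ring
    · have h3 : b i = - a i := by
        rcases ha i hi' with h4 | h4 <;> rcases hb i hi' with h5 | h5
        · exact absurd (h4.trans h5.symm) h
        · rw [h4, h5]
        · rw [h4, h5]; norm_num
        · exact absurd (h4.trans h5.symm) h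
      rw [h3]
      push_cast
      ring
  have hF : ∀ z : ℂ, ‖z‖ = 1 → lit (m * n) f z =
      ((lit m a z + lit m b z) / 2) * lit n d (z ^ m) -
      ((lit m a z - lit m b z) / 2) * ((z ^ m) ^ (n - 1) * conj (lit n c (z ^ m))) := by
    intro z hz
    have hzm : ‖z ^ m‖ = 1 := by rw [norm_pow, hz, one_pow]
    rw [← rev_eq n c hzm]
    unfold lit
    rw [sum_block, ← Finset.sum_add_distrib, ← Finset.sum_sub_distrib, Finset.mul_sum,
      Finset.mul_sum, ← Finset.sum_sub_distrib]
    refine Finset.sum_congr rfl fun j _ => ?_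
    rw [Finset.sum_div, Finset.sum_div, Finset.sum_mul, Finset.sum_mul, ← Finset.sum_sub_distrib]
    refine Finset.sum_congr rfl fun i hi => ?_
    have hi' : i < m := Finset.mem_range.mp hi
    have e1 : (m * j + i) % m = i := by
      rw [Nat.mul_add_mod, Nat.mod_eq_of_lt hi']
    have e2 : (m * j + i) / m = j := by
      rw [Nat.mul_add_div hm, Nat.div_eq_of_lt hi', add_zero]
    have e3 : z ^ (m * j + i) = (z ^ m) ^ j * z ^ i := by
      rw [pow_add, pow_mul]
    rw [hf]
    simp only [e1, e2, e3]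
    split_ifs with h
    · rw [← h]
      push_cast
      ring
    · have h3 : b i = - a i := by
        rcases ha i hi' with h4 | h4 <;> rcases hb i hi' with h5 | h5
        · exact absurd (h4.trans h5.symm) h
        · rw [h4, h5]
        · rw [h4, h5]; norm_num
        · exact absurd (h4.trans h5.symm) h
      rw [h3]
      push_cast
      ring
  refine ⟨e, f, ?_, ?_, ?_⟩
  · intro k hk
    have h3 := hk2 k hk
    have h5 : n - 1 - k / m < n := by
      generalize k / m = t at h3
      omega
    rw [he]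
    simp only
    split_ifs
    · exact hs (ha _ (hk1 k hk)) (hc _ h3)
    · exact hs (ha _ (hk1 k hk)) (hd _ h5)
  · intro k hk
    have h3 := hk2 k hk
    have h5 : n - 1 - k / m < n := by
      generalize k / m = t at h3
      omega
    rw [hf]
    simp only
    split_ifs
    · exact hs (ha _ (hk1 k hk)) (hd _ h3)
    · rcases hs (ha _ (hk1 k hk)) (hc (n - 1 - k / m) h5) with h4 | h4
      · right; rw [h4]
      · left; rw [h4]; norm_num
  · intro z hz
    have hzm : ‖z ^ m‖ = 1 := by rw [norm_pow, hz, one_pow]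
    rw [hE z hz, hF z hz]
    have g1 := h1 z hz
    have g2 := h2 (z ^ m) hzm
    have hW : (z ^ m) ^ (n - 1) * conj ((z ^ m) ^ (n - 1)) = 1 := by
      rw [Complex.mul_conj, Complex.normSq_eq_norm_sq, norm_pow, hzm]
      simp
    generalize (z ^ m) ^ (n - 1) = W at *
    generalize lit m a z = A at *
    generalize lit m b z = B at *
    generalize lit n c (z ^ m) = C at *
    generalize lit n d (z ^ m) = D at *
    have c2 : conj (2 : ℂ) = 2 := Complex.conj_ofNat 2
    simp only [map_add, map_sub, map_mul, map_div₀, Complex.conj_conj, c2]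
    generalize conj A = A' at *
    generalize conj B = B' at *
    generalize conj C = C' at *
    generalize conj D = D' at *
    generalize conj W = W' at *
    push_cast
    linear_combination ((A - B) / 2 * ((A' - B') / 2) * (C * C' + D * D')) * hW +
      (1 / 2) * (C * C' + D * D') * g1 + (m : ℂ) * g2

/-- length 2 -/
theorem two : Gol 2 (fun _ => 1) (fun k => if k = 1 then -1 else 1) := by
  refine ⟨fun k _ => Or.inl rfl, ?_, ?_⟩
  · intro k _
    simp only
    split_ifs
    · right; rfl
    · left; rfl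
  · intro z hz
    have h0 := zne hz
    unfold lit
    simp only [Finset.sum_range_succ, Finset.sum_range_zero, map_add, map_mul, map_pow,
      conj_eq_inv hz]
    norm_num
    field_simp
    ring

/-- first sequence of length 10 -/
def a10 : ℕ → ℤ := fun k => if k = 2 ∨ k = 4 ∨ k = 6 ∨ k = 7 then -1 else 1

/-- second sequence of length 10 -/
def b10 : ℕ → ℤ := fun k => if k = 2 ∨ k = 8 ∨ k = 9 then -1 else 1

theorem ten : Gol 10 a10 b10 := by
  refine ⟨?_, ?_, ?_⟩
  · intro k _
    unfold a10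
    split_ifs
    · right; rfl
    · left; rfl
  · intro k _
    unfold b10
    split_ifs
    · right; rfl
    · left; rfl
  · intro z hz
    have h0 := zne hz
    have hA : lit 10 a10 z = 1 + z - z ^ 2 + z ^ 3 - z ^ 4 + z ^ 5 - z ^ 6 - z ^ 7 + z ^ 8 +
        z ^ 9 := by
      unfold lit a10
      simp only [Finset.sum_range_succ, Finset.sum_range_zero]
      norm_num
      ring
    have hB : lit 10 b10 z = 1 + z - z ^ 2 + z ^ 3 + z ^ 4 + z ^ 5 + z ^ 6 + z ^ 7 - z ^ 8 -
        z ^ 9 := by
      unfold lit b10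
      simp only [Finset.sum_range_succ, Finset.sum_range_zero]
      norm_num
      ring
    rw [hA, hB]
    simp only [map_add, map_sub, map_pow, map_one, conj_eq_inv hz]
    field_simp
    ring

theorem exists_gol (a b : ℕ) : ∃ e f : ℕ → ℤ, Gol (2 ^ a * 10 ^ b) e f := by
  induction a with
  | zero =>
    rw [pow_zero, one_mul]
    induction b with
    | zero =>
      refine ⟨fun _ => 1, fun _ => 1, fun k _ => Or.inl rfl, fun k _ => Or.inl rfl, ?_⟩
      intro z hz
      unfold lit
      simp
      norm_num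
    | succ b ih =>
      obtain ⟨e, f, h⟩ := ih
      rw [pow_succ, Nat.mul_comm]
      exact mul (by norm_num) ten h
  | succ a ih =>
    obtain ⟨e, f, h⟩ := ih
    have h1 : 2 ^ (a + 1) * 10 ^ b = 2 * (2 ^ a * 10 ^ b) := by ring
    rw [h1]
    exact mul (by norm_num) two h

theorem thm : StmtGOL := by
  intro a b
  obtain ⟨e, f, h1, h2, h3⟩ := exists_gol a b
  refine ⟨e, h1, fun z hz => ?_⟩
  have h4 := h3 z hz
  rw [Complex.mul_conj, Complex.mul_conj, ← Complex.ofReal_add] at h4
  have h5 : Complex.normSq (lit (2 ^ a * 10 ^ b) e z) +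
      Complex.normSq (lit (2 ^ a * 10 ^ b) f z) = 2 * ((2 ^ a * 10 ^ b : ℕ) : ℝ) := by
    exact_mod_cast h4
  apply Real.le_sqrt_of_sq_le
  rw [← Complex.normSq_eq_norm_sq]
  have h6 := Complex.normSq_nonneg (lit (2 ^ a * 10 ^ b) f z)
  linarith

end Vale.P110.GOL
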