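import Vale.Agent.P110.FIN

/-! P110: long partial sums and long tails of a flat polynomial are large. -/

namespace Vale.P110.Large

open Polynomial Finset

theorem large (ε : ℕ → ℂ) (hε : ∀ k, ‖ε k‖ = 1) (N a : ℕ) (hN : 1 ≤ N) (haN : a ≤ N) (c : ℝ)
    (hc0 : 0 ≤ c) (hc1 : c < 1) (h1 : Flat (part ε N) N c)
    (ha : (1 / 2 + 2 / 3 * (1 / (1 - c) ^ 2 - 1)) * N < a) :
    ∃ z : ℂ, ‖z‖ = 1 ∧ ‖(part ε N).eval z‖ ≤ ‖(part ε a).eval z‖ := by
  by_contra hcon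
  push Not at hcon
  obtain ⟨b, rfl⟩ := Nat.exists_eq_add_of_le haN
  set B : ℂ[X] := part (fun k => ε (a + k)) b with hB
  have hdec : part ε (a + b) = part ε a + X ^ a * B := FIN.part_add ε a b
  have hlt' : ∀ z : ℂ, ‖z‖ = 1 →
      ‖(part ε (a + b)).eval z - (X ^ a * B).eval z‖ < ‖(part ε (a + b)).eval z‖ := by
    intro z hz
    have e : (part ε (a + b)).eval z - (X ^ a * B).eval z = (part ε a).eval z := by
      rw [hdec, eval_add]
      ring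
    rw [e]
    exact hcon z hz
  have hB0 : ∀ z : ℂ, ‖z‖ = 1 → B.eval z ≠ 0 := by
    intro z hz h0
    have h3 := hlt' z hz
    rw [eval_mul, h0, mul_zero, sub_zero] at h3
    exact lt_irrefl _ h3
  obtain ⟨m, ham, hm⟩ := CNT.thm a B hB0
  have hlog := LOG.thm _ _ hlt'
  rw [hm] at hlog
  have hest := EST.thm MEAN.thm ε hε (a + b) hN c hc0 hc1 h1 m hlog
  have h4 : (a : ℝ) ≤ m := by exact_mod_cast ham
  linarith

/-- the partial sum as a function -/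
noncomputable def ps (ε : ℕ → ℂ) (n : ℕ) (z : ℂ) : ℂ := ∑ k ∈ range n, ε k * z ^ k

theorem eval_part (ε : ℕ → ℂ) (n : ℕ) (z : ℂ) : (part ε n).eval z = ps ε n z := by
  simp only [part, ps, eval_finsetSum, eval_mul, eval_C, eval_pow, eval_X]

/-- reversal -/
theorem rev (ε : ℕ → ℂ) (N b : ℕ) (hb : b ≤ N) (z : ℂ) (hz : z ≠ 0) :
    ps (fun k => ε (N - 1 - k)) b z = z ^ ((N : ℤ) - 1) * (ps ε N z⁻¹ - ps ε (N - b) z⁻¹) := by
  have h1 : ps ε N z⁻¹ - ps ε (N - b) z⁻¹ = ∑ k ∈ Ico (N - b) N, ε k * z⁻¹ ^ k := by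
    unfold ps
    rw [sum_Ico_eq_sub _ (Nat.sub_le N b)]
  rw [h1, mul_sum]
  unfold ps
  refine sum_bij' (fun k _ => N - 1 - k) (fun k _ => N - 1 - k) ?_ ?_ ?_ ?_ ?_
  · intro k hk
    rw [mem_range] at hk
    rw [mem_Ico]
    omega
  · intro k hk
    rw [mem_Ico] at hk
    rw [mem_range]
    omega
  · intro k hk
    rw [mem_range] at hk
    omega
  · intro k hk
    rw [mem_Ico] at hk
    omega
  · intro k hk
    rw [mem_range] at hk
    have h2 : z ^ k = z ^ ((N : ℤ) - 1) * z⁻¹ ^ (N - 1 - k) := by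
      rw [inv_pow, ← zpow_natCast z (N - 1 - k), ← zpow_neg, ← zpow_add₀ hz, ← zpow_natCast z k]
      congr 1
      omega
    rw [h2]
    ring

theorem large_tail (ε : ℕ → ℂ) (hε : ∀ k, ‖ε k‖ = 1) (N a : ℕ) (hN : 1 ≤ N) (haN : a ≤ N)
    (c : ℝ) (hc0 : 0 ≤ c) (hc1 : c < 1) (h1 : Flat (part ε N) N c)
    (ha : (1 / 2 + 2 / 3 * (1 / (1 - c) ^ 2 - 1)) * N < N - a) :
    ∃ z : ℂ, ‖z‖ = 1 ∧ ‖ps ε N z‖ ≤ ‖ps ε N z - ps ε a z‖ := by
  set ε' : ℕ → ℂ := fun k => ε (N - 1 - k) with hε'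
  have hnorm : ∀ (b : ℕ), b ≤ N → ∀ z : ℂ, ‖z‖ = 1 →
      ‖ps ε' b z‖ = ‖ps ε N z⁻¹ - ps ε (N - b) z⁻¹‖ := by
    intro b hb z hz
    have hz0 : z ≠ 0 := by
      intro h
      rw [h, norm_zero] at hz
      exact zero_ne_one hz
    rw [hε', rev ε N b hb z hz0, norm_mul, norm_zpow, hz, one_zpow, one_mul]
  have hN0 : ∀ z : ℂ, ‖z‖ = 1 → ‖ps ε' N z‖ = ‖ps ε N z⁻¹‖ := by
    intro z hz
    rw [hnorm N le_rfl z hz, Nat.sub_self]
    simp [ps]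
  have hflat : Flat (part ε' N) N c := by
    intro z hz
    rw [eval_part, hN0 z hz, ← eval_part]
    exact h1 z⁻¹ (by rw [norm_inv, hz, inv_one])
  have hcast : ((N - a : ℕ) : ℝ) = (N : ℝ) - a := by
    rw [Nat.cast_sub haN]
  obtain ⟨z, hz, h⟩ := large ε' (fun k => hε _) N (N - a) hN (Nat.sub_le N a) c hc0 hc1 hflat
    (by rw [hcast]; exact ha)
  refine ⟨z⁻¹, by rw [norm_inv, hz, inv_one], ?_⟩
  rw [eval_part, eval_part, hN0 z hz, hnorm (N - a) (Nat.sub_le N a) z hz,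
    Nat.sub_sub_self haN] at h
  exact h

end Vale.P110.Large
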