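import Vale.Agent.P110.Large

/-! P110: limit form. -/

namespace Vale.P110.Large

theorem limit_form (δ : ℝ) (hδ : 0 < δ) : ∃ c : ℝ, 0 < c ∧ ∀ ε : ℕ → ℂ, (∀ k, ‖ε k‖ = 1) →
    ∀ N : ℕ, 1 ≤ N → Flat (part ε N) N c → ∀ a : ℕ, a ≤ N →
      ((1 / 2 + δ) * N < a → ∃ z : ℂ, ‖z‖ = 1 ∧ (1 - δ) * √N ≤ ‖ps ε a z‖) ∧
      ((1 / 2 + δ) * N < N - a → ∃ z : ℂ, ‖z‖ = 1 ∧ (1 - δ) * √N ≤ ‖ps ε N z - ps ε a z‖) := by
  have hc2 : Filter.Tendsto (fun c : ℝ => (1 / 2 + 2 / 3 * (1 / (1 - c) ^ 2 - 1)))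
      (nhds 0) (nhds (1 / 2)) := by
    have : ContinuousAt (fun c : ℝ => (1 / 2 + 2 / 3 * (1 / (1 - c) ^ 2 - 1))) 0 := by
      apply ContinuousAt.add (by fun_prop)
      apply ContinuousAt.mul (by fun_prop)
      apply ContinuousAt.sub _ (by fun_prop)
      apply ContinuousAt.div (by fun_prop) (by fun_prop)
      norm_num
    have h := this.tendsto
    norm_num at h
    norm_num
    exact h
  have ev2 : ∀ᶠ c : ℝ in nhds 0, (1 / 2 + 2 / 3 * (1 / (1 - c) ^ 2 - 1)) < 1 / 2 + δ :=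
    hc2.eventually (gt_mem_nhds (by linarith))
  have ev3 : ∀ᶠ c : ℝ in nhds 0, c < 1 := gt_mem_nhds (by norm_num)
  have ev4 : ∀ᶠ c : ℝ in nhds 0, c < δ := gt_mem_nhds hδ
  obtain ⟨c, ⟨g2, g3, g4⟩, hcpos⟩ := (((ev2.and (ev3.and ev4)).filter_mono
    nhdsWithin_le_nhds).and
    (self_mem_nhdsWithin : Set.Ioi (0 : ℝ) ∈ nhdsWithin 0 (Set.Ioi 0))).exists
  have hcpos' : (0 : ℝ) < c := hcpos
  refine ⟨c, hcpos', fun ε hε N hN hflat a ha => ⟨fun h => ?_, fun h => ?_⟩⟩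
  · have hN0 : (0 : ℝ) ≤ N := Nat.cast_nonneg N
    obtain ⟨z, hz, h2⟩ := large ε hε N a hN ha c hcpos'.le g3 hflat
      (lt_of_le_of_lt (mul_le_mul_of_nonneg_right g2.le hN0) h)
    refine ⟨z, hz, ?_⟩
    rw [eval_part, eval_part] at h2
    have h3 := (hflat z hz).1
    rw [eval_part] at h3
    have h4 : (1 - δ) * √(N : ℝ) ≤ (1 - c) * √(N : ℝ) :=
      mul_le_mul_of_nonneg_right (by linarith) (Real.sqrt_nonneg _)
    linarith
  · have hN0 : (0 : ℝ) ≤ N := Nat.cast_nonneg N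
    obtain ⟨z, hz, h2⟩ := large_tail ε hε N a hN ha c hcpos'.le g3 hflat
      (lt_of_le_of_lt (mul_le_mul_of_nonneg_right g2.le hN0) h)
    refine ⟨z, hz, ?_⟩
    have h3 := (hflat z hz).1
    rw [eval_part] at h3
    have h4 : (1 - δ) * √(N : ℝ) ≤ (1 - c) * √(N : ℝ) :=
      mul_le_mul_of_nonneg_right (by linarith) (Real.sqrt_nonneg _)
    linarith

end Vale.P110.Large
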