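import Vale.Agent.P110.GOL

/-! # P110: products `Q(z) R(z^m)` are not flat (helper18) -/

namespace Vale.P110.PROD
open Finset BigOperators Vale.P110 ComplexConjugate

theorem rs {M : ℕ} {w : ℂ} (hw : IsPrimitiveRoot w M) {a l : ℕ} (ha : a < M) (hl : l < M) :
    ∑ t ∈ range M, (w ^ a * (w⁻¹) ^ l) ^ t = if a = l then (M : ℂ) else 0 := by
  have hw0 : w ≠ 0 := by
    intro h
    have h1 := hw.pow_eq_one
    rw [h, zero_pow (by omega)] at h1
    exact zero_ne_one h1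
  by_cases h : a = l
  · rw [if_pos h, h]
    have h1 : w ^ l * (w⁻¹) ^ l = 1 := by
      rw [← mul_pow, mul_inv_cancel₀ hw0, one_pow]
    rw [h1]
    simp
  · rw [if_neg h]
    have hx1 : w ^ a * (w⁻¹) ^ l ≠ 1 := by
      intro h1
      apply h
      apply hw.pow_inj ha hl
      have h2 : w ^ l ≠ 0 := pow_ne_zero _ hw0
      rw [inv_pow] at h1
      field_simp at h1
      exact h1
    have hxM : (w ^ a * (w⁻¹) ^ l) ^ M = 1 := by
      rw [mul_pow, ← pow_mul, ← pow_mul, mul_comm a, mul_comm l, pow_mul, pow_mul, inv_pow,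
        hw.pow_eq_one]
      simp
    have h1 := geom_sum_mul (w ^ a * (w⁻¹) ^ l) M
    rw [hxM, sub_self] at h1
    rcases mul_eq_zero.mp h1 with h2 | h2
    · exact h2
    · exact absurd (sub_eq_zero.mp h2) hx1

/-- the squared modulus as a complex number -/
theorem sq_eq (m : ℕ) (q : ℕ → ℤ) (z : ℂ) :
    ((‖lit m q z‖ ^ 2 : ℝ) : ℂ) = lit m q z * conj (lit m q z) := by
  rw [Complex.mul_conj, Complex.normSq_eq_norm_sq]

/-- weighted sum of the squared moduli over `M`-th roots of unity -/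
theorem wsum {M m s : ℕ} {w z : ℂ} (hw : IsPrimitiveRoot w M) (hM : 0 < M) (hz : ‖z‖ = 1)
    (hms : m + s ≤ M) (q : ℕ → ℤ) :
    ∑ t ∈ range M, ((‖lit m q (w ^ t * z)‖ ^ 2 : ℝ) : ℂ) * (w ^ s) ^ t =
      ∑ k ∈ range m, ∑ l ∈ range m,
        ((q k : ℤ) : ℂ) * ((q l : ℤ) : ℂ) * (z ^ k * (z⁻¹) ^ l) *
          (if k + s = l then (M : ℂ) else 0) := by
  have hw1 : ‖w‖ = 1 := hw.norm'_eq_one (by omega)
  have h1 : ∀ t, ((‖lit m q (w ^ t * z)‖ ^ 2 : ℝ) : ℂ) * (w ^ s) ^ t =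
      ∑ k ∈ range m, ∑ l ∈ range m,
        ((q k : ℤ) : ℂ) * ((q l : ℤ) : ℂ) * (z ^ k * (z⁻¹) ^ l) *
          (w ^ (k + s) * (w⁻¹) ^ l) ^ t := by
    intro t
    rw [sq_eq]
    unfold lit
    rw [map_sum, Finset.sum_mul_sum, Finset.sum_mul]
    refine Finset.sum_congr rfl fun k _ => ?_
    rw [Finset.sum_mul]
    refine Finset.sum_congr rfl fun l _ => ?_
    rw [map_mul, map_pow, map_mul, map_pow, GOL.conj_eq_inv hw1, GOL.conj_eq_inv hz,
      map_intCast (starRingEnd ℂ) (q l)]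
    ring
  rw [Finset.sum_congr rfl fun t _ => h1 t, Finset.sum_comm]
  refine Finset.sum_congr rfl fun k hk => ?_
  rw [Finset.sum_comm]
  refine Finset.sum_congr rfl fun l hl => ?_
  have hk' := Finset.mem_range.mp hk
  have hl' := Finset.mem_range.mp hl
  rw [← Finset.mul_sum, rs hw (by omega) (by omega)]

theorem parseval {m : ℕ} {w z : ℂ} (hw : IsPrimitiveRoot w m) (hm : 0 < m) (hz : ‖z‖ = 1)
    (q : ℕ → ℤ) (hq : Signs m q) :
    ∑ t ∈ range m, ‖lit m q (w ^ t * z)‖ ^ 2 = (m : ℝ) * m := by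
  have h1 := wsum (m := m) (s := 0) hw hm hz (by omega) q
  simp only [pow_zero, one_pow, mul_one, add_zero] at h1
  have hz0 := GOL.zne hz
  have h2 : ∀ k ∈ range m, ∑ l ∈ range m,
      ((q k : ℤ) : ℂ) * ((q l : ℤ) : ℂ) * (z ^ k * (z⁻¹) ^ l) * (if k = l then (m : ℂ) else 0) =
      (m : ℂ) := by
    intro k hk
    rw [Finset.sum_eq_single k]
    · rw [if_pos rfl]
      have h3 : z ^ k * (z⁻¹) ^ k = 1 := by
        rw [← mul_pow, mul_inv_cancel₀ hz0, one_pow]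
      rw [h3]
      rcases hq k (Finset.mem_range.mp hk) with h4 | h4
      · rw [h4]; norm_num
      · rw [h4]; norm_num
    · intro l _ hl
      rw [if_neg (Ne.symm hl), mul_zero]
    · intro h
      exact absurd hk h
  rw [Finset.sum_congr rfl h2, Finset.sum_const, Finset.card_range, nsmul_eq_mul] at h1
  exact_mod_cast h1

theorem corr {m : ℕ} {w : ℂ} (hw : IsPrimitiveRoot w (2 * m)) (hm : 2 ≤ m) (q : ℕ → ℤ) :
    ∑ t ∈ range (2 * m), ((‖lit m q (w ^ t)‖ ^ 2 : ℝ) : ℂ) * (w ^ (m - 1)) ^ t =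
      ((q 0 : ℤ) : ℂ) * ((q (m - 1) : ℤ) : ℂ) * ((2 * m : ℕ) : ℂ) := by
  have h1 := wsum (z := 1) (m := m) (s := m - 1) hw (by omega) (by simp) (by omega) q
  simp only [mul_one, one_pow, inv_one] at h1
  rw [h1, Finset.sum_eq_single 0]
  · rw [Finset.sum_eq_single (m - 1)]
    · rw [if_pos (by omega)]
    · intro l _ hl
      rw [if_neg (by omega), mul_zero]
    · intro h
      exact absurd (Finset.mem_range.mpr (by omega)) h
  · intro k _ hk
    refine Finset.sum_eq_zero fun l hl => ?_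
    have hl' := Finset.mem_range.mp hl
    rw [if_neg (by omega), mul_zero]
  · intro h
    exact absurd (Finset.mem_range.mpr (by omega)) h

/-- if `|Q(z)|² ` is within `D` of `m` at all `2m`-th roots of unity then `D ≥ 1` -/
theorem one_le {m : ℕ} (hm : 2 ≤ m) (q : ℕ → ℤ) (hq : Signs m q) (D : ℝ)
    (hD : ∀ z : ℂ, ‖z‖ = 1 → |‖lit m q z‖ ^ 2 - m| ≤ D) : 1 ≤ D := by
  have hw := Complex.isPrimitiveRoot_exp (2 * m) (by omega)
  set w : ℂ := Complex.exp (2 * Real.pi * Complex.I / (2 * m : ℕ)) with hwd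
  have hw1 : ‖w‖ = 1 := hw.norm'_eq_one (by omega)
  have h1 := corr hw hm q
  have h2 : ∑ t ∈ range (2 * m), (m : ℂ) * (w ^ (m - 1)) ^ t = 0 := by
    rw [← Finset.mul_sum]
    have h3 := rs hw (a := m - 1) (l := 0) (by omega) (by omega)
    rw [if_neg (by omega)] at h3
    simp only [pow_zero, mul_one] at h3
    rw [h3, mul_zero]
  have h3 : ∑ t ∈ range (2 * m), (((‖lit m q (w ^ t)‖ ^ 2 - m : ℝ)) : ℂ) * (w ^ (m - 1)) ^ t =
      ((q 0 : ℤ) : ℂ) * ((q (m - 1) : ℤ) : ℂ) * ((2 * m : ℕ) : ℂ) := by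
    rw [← h1, ← sub_zero (∑ t ∈ range (2 * m), ((‖lit m q (w ^ t)‖ ^ 2 : ℝ) : ℂ) *
      (w ^ (m - 1)) ^ t), ← h2, ← Finset.sum_sub_distrib]
    refine Finset.sum_congr rfl fun t _ => ?_
    push_cast
    ring
  have h4 : ‖((q 0 : ℤ) : ℂ) * ((q (m - 1) : ℤ) : ℂ) * ((2 * m : ℕ) : ℂ)‖ = 2 * m := by
    rw [norm_mul, norm_mul]
    have a0 : ‖((q 0 : ℤ) : ℂ)‖ = 1 := by
      rcases hq 0 (by omega) with h | h <;> rw [h] <;> simp
    have a1 : ‖((q (m - 1) : ℤ) : ℂ)‖ = 1 := by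
      rcases hq (m - 1) (by omega) with h | h <;> rw [h] <;> simp
    rw [a0, a1, Complex.norm_natCast]
    push_cast
    ring
  have h5 : ‖∑ t ∈ range (2 * m), (((‖lit m q (w ^ t)‖ ^ 2 - m : ℝ)) : ℂ) *
      (w ^ (m - 1)) ^ t‖ ≤ (2 * m : ℝ) * D := by
    refine le_trans (norm_sum_le _ _) ?_
    have h6 : ∀ t ∈ range (2 * m), ‖(((‖lit m q (w ^ t)‖ ^ 2 - m : ℝ)) : ℂ) *
        (w ^ (m - 1)) ^ t‖ ≤ D := by
      intro t _
      rw [norm_mul, norm_pow, norm_pow, hw1, one_pow, one_pow, mul_one, Complex.norm_real,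
        Real.norm_eq_abs]
      exact hD (w ^ t) (by rw [norm_pow, hw1, one_pow])
    refine le_trans (Finset.sum_le_sum h6) ?_
    rw [Finset.sum_const, Finset.card_range, nsmul_eq_mul]
    push_cast
    exact le_rfl
  rw [h3, h4] at h5
  have hm' : (0 : ℝ) < 2 * m := by positivity
  nlinarith

theorem main (m L : ℕ) (hm : 2 ≤ m) (q r : ℕ → ℤ) (hq : Signs m q) :
    ∃ z : ℂ, ‖z‖ = 1 ∧
      (‖lit m q z * lit L r (z ^ m)‖ < (1 - 1 / (8 * m)) * Real.sqrt (m * L) ∨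
        (1 + 1 / (8 * m)) * Real.sqrt (m * L) < ‖lit m q z * lit L r (z ^ m)‖) ∨ L = 0 := by
  by_cases hL : L = 0
  · exact ⟨1, Or.inr hL⟩
  by_contra hcon
  push Not at hcon
  have hm0 : (2 : ℝ) ≤ m := by exact_mod_cast hm
  have hL0 : (0 : ℝ) < L := by exact_mod_cast Nat.pos_of_ne_zero hL
  set S : ℝ := Real.sqrt (m * L) with hS
  have hSp : 0 < S := Real.sqrt_pos.mpr (by positivity)
  set c : ℝ := 1 / (8 * m) with hc
  have hc0 : 0 < c := by positivity
  have hmc : (m : ℝ) * c = 1 / 8 := by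
    rw [hc]
    field_simp
  have hc1 : c ≤ 1 / 16 := by nlinarith
  have key : ∀ z : ℂ, ‖z‖ = 1 → (1 - c) * S ≤ ‖lit m q z‖ * ‖lit L r (z ^ m)‖ ∧
      ‖lit m q z‖ * ‖lit L r (z ^ m)‖ ≤ (1 + c) * S := by
    intro z hz
    have h := (hcon z).1 hz
    rw [norm_mul] at h
    exact h
  have hw := Complex.isPrimitiveRoot_exp m (by omega)
  set w : ℂ := Complex.exp (2 * Real.pi * Complex.I / m) with hwd
  have hw1 : ‖w‖ = 1 := hw.norm'_eq_one (by omega)
  have hdev : ∀ z : ℂ, ‖z‖ = 1 → |‖lit m q z‖ ^ 2 - m| ≤ 4 * m * c / (1 - c) ^ 2 := by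
    intro z hz
    have hpar := parseval hw (by omega) hz q hq
    obtain ⟨k1, k2⟩ := key z hz
    have hrz : 0 < ‖lit L r (z ^ m)‖ := by
      rcases (norm_nonneg (lit L r (z ^ m))).lt_or_eq with h | h
      · exact h
      · rw [← h, mul_zero] at k1
        have : 0 < (1 - c) * S := mul_pos (by linarith) hSp
        linarith
    have hpt : ∀ t ∈ range m, (1 - c) * ‖lit m q (w ^ t * z)‖ ≤ (1 + c) * ‖lit m q z‖ ∧
        (1 - c) * ‖lit m q z‖ ≤ (1 + c) * ‖lit m q (w ^ t * z)‖ := by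
      intro t _
      have hzt : ‖w ^ t * z‖ = 1 := by rw [norm_mul, norm_pow, hw1, one_pow, one_mul, hz]
      obtain ⟨k3, k4⟩ := key (w ^ t * z) hzt
      have he : (w ^ t * z) ^ m = z ^ m := by
        rw [mul_pow, ← pow_mul, mul_comm t, pow_mul, hw.pow_eq_one, one_pow, one_mul]
      rw [he] at k3 k4
      generalize ‖lit L r (z ^ m)‖ = R at *
      generalize ‖lit m q (w ^ t * z)‖ = X at *
      generalize ‖lit m q z‖ = Y at *
      constructor
      · have h1 : (1 - c) * X * R ≤ (1 + c) * Y * R := by nlinarith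
        exact le_of_mul_le_mul_right h1 hrz
      · have h1 : (1 - c) * Y * R ≤ (1 + c) * X * R := by nlinarith
        exact le_of_mul_le_mul_right h1 hrz
    have hup : (1 - c) ^ 2 * ((m : ℝ) * m) ≤ m * ((1 + c) ^ 2 * ‖lit m q z‖ ^ 2) := by
      rw [← hpar, Finset.mul_sum]
      have h1 : ∀ t ∈ range m, (1 - c) ^ 2 * ‖lit m q (w ^ t * z)‖ ^ 2 ≤
          (1 + c) ^ 2 * ‖lit m q z‖ ^ 2 := by
        intro t ht
        have h2 := (hpt t ht).1
        have h3 : 0 ≤ (1 - c) * ‖lit m q (w ^ t * z)‖ :=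
          mul_nonneg (by linarith) (norm_nonneg _)
        have h4 := pow_le_pow_left₀ h3 h2 2
        rw [mul_pow, mul_pow] at h4
        exact h4
      refine le_trans (Finset.sum_le_sum h1) ?_
      rw [Finset.sum_const, Finset.card_range, nsmul_eq_mul]
    have hlo : (m : ℝ) * ((1 - c) ^ 2 * ‖lit m q z‖ ^ 2) ≤ (1 + c) ^ 2 * ((m : ℝ) * m) := by
      rw [← hpar, Finset.mul_sum]
      have h1 : ∀ t ∈ range m, (1 - c) ^ 2 * ‖lit m q z‖ ^ 2 ≤
          (1 + c) ^ 2 * ‖lit m q (w ^ t * z)‖ ^ 2 := by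
        intro t ht
        have h2 := (hpt t ht).2
        have h3 : 0 ≤ (1 - c) * ‖lit m q z‖ := mul_nonneg (by linarith) (norm_nonneg _)
        have h4 := pow_le_pow_left₀ h3 h2 2
        rw [mul_pow, mul_pow] at h4
        exact h4
      refine le_trans ?_ (Finset.sum_le_sum h1)
      rw [Finset.sum_const, Finset.card_range, nsmul_eq_mul]
    generalize ‖lit m q z‖ ^ 2 = F at *
    have hmp : (0 : ℝ) < m := by linarith
    have u1 : (1 - c) ^ 2 * (m : ℝ) ≤ (1 + c) ^ 2 * F := by nlinarith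
    have u2 : (1 - c) ^ 2 * F ≤ (1 + c) ^ 2 * (m : ℝ) := by nlinarith
    have hcc : 0 < (1 - c) ^ 2 := by
      have : 0 < 1 - c := by linarith
      positivity
    rw [abs_le]
    constructor
    · rw [neg_le_sub_iff_le_add, ← sub_le_iff_le_add', le_div_iff₀ hcc]
      nlinarith
    · rw [le_div_iff₀ hcc]
      nlinarith
  have h1 := one_le hm q hq _ hdev
  have hcc : 0 < (1 - c) ^ 2 := by
    have : 0 < 1 - c := by linarith
    positivity
  rw [le_div_iff₀ hcc] at h1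
  nlinarith

end Vale.P110.PROD
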